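import Crest.Agent.N221.Hu.Alg
import Crest.Agent.N221.K.Gen

/-! Row 221, block Hm (helper53): the MIDDLE of the hull argument, in one chart.

`PG om W π P`: an open set `W` of a symplectic space, the continuous projector `π` on `E^u` along
`E^s`, a set `P` of smooth local (anti)symplectic maps.  `Cls`: the class of smooth equivariant
families of Lie algebras (nonempty by G0 + rank one).  `Out`: the isotropic pair `Y false ⊆ E^u`,
`Y true ⊆ E^s` with `Y b ⊆ Ch ((Y !b)^ω)`.  MAIN STATEMENT `HmS`. -/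

set_option autoImplicit false
set_option linter.unusedSectionVars false
set_option linter.unusedVariables false

open Set Filter Topology Module
open scoped ContDiff

noncomputable section

namespace Crest.Agent.N221.Hm

open Hu

section Defs
variable {E F : Type} [NormedAddCommGroup E] [NormedSpace ℝ E]
  [NormedAddCommGroup F] [NormedSpace ℝ F]

/-- `p` is a projector on `M` -/
def Prj (M : Submodule ℝ F) (p : F →L[ℝ] F) : Prop := (∀ v, p v ∈ M) ∧ ∀ v ∈ M, p v = v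

/-- smooth family of subspaces: it has a smooth projector on `O` -/
def Sm (M : E → Submodule ℝ F) (O : Set E) : Prop :=
  ∃ p : E → F →L[ℝ] F, ContDiffOn ℝ ∞ p O ∧ ∀ z ∈ O, Prj (M z) (p z)

/-- every vector of the family extends to a smooth section on `O` -/
def Ext (M : E → Submodule ℝ F) (O : Set E) : Prop :=
  ∀ z ∈ O, ∀ v ∈ M z, ∃ s : E → F, ContDiffOn ℝ ∞ s O ∧ s z = v ∧ ∀ z' ∈ O, s z' ∈ M z'

/-- nonempty open subset -/
structure Sub (O' O : Set E) : Prop where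
  opn : IsOpen O'
  ne : O'.Nonempty
  sub : O' ⊆ O

/-- a move of the pseudogroup: local map `f` on `U`, differential `L`, `s = true` for a flip -/
structure Mv (E : Type) [NormedAddCommGroup E] [NormedSpace ℝ E] where
  U : Set E
  f : E → E
  L : E → E ≃L[ℝ] E
  s : Bool

/-- `pr p false = p`, `pr p true = 1 - p` -/
def pr (p : E →L[ℝ] E) (b : Bool) : E →L[ℝ] E := cond b (1 - p) p

/-- the sign of a move -/
def sg (b : Bool) : ℝ := cond b (-1) 1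

/-- `L` contracts `ker p`, `L⁻¹` contracts `range p` -/
def Hyb (L : E ≃L[ℝ] E) (p : E →L[ℝ] E) : Prop :=
  ∃ C θ : ℝ, 0 ≤ θ ∧ θ < 1 ∧ ∀ (j : ℕ) (v : E), (p v = 0 → ‖(⇑L)^[j] v‖ ≤ C * θ ^ j * ‖v‖) ∧
    (p v = v → ‖(⇑L.symm)^[j] v‖ ≤ C * θ ^ j * ‖v‖)

/-- `D` is the logarithm of the hyperbolic part of `L` -/
def IsLog (L : E ≃L[ℝ] E) (D : E →L[ℝ] E) : Prop := ∀ r v, K.Gr L r v → D v = r • v

/-- `z` is a hyperbolic fixed point of `g` -/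
structure Per (π : E → E →L[ℝ] E) (g : Mv E) (z : E) : Prop where
  s : g.s = false
  mem : z ∈ g.U
  fix : g.f z = z
  hyb : Hyb (g.L z) (π z)

/-- the model -/
structure PG (om : E →L[ℝ] E →L[ℝ] ℝ) (W : Set E) (π : E → E →L[ℝ] E) (P : Set (Mv E)) : Prop where
  skew : ∀ v w, om v w = -om w v
  nd : ∀ v, (∀ w, om v w = 0) → v = 0
  cont : ContinuousOn π W
  idem : ∀ z ∈ W, π z * π z = π z
  lag : ∀ z ∈ W, ∀ v w, om (π z v) w = om v (w - π z w)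
  opn : ∀ g ∈ P, IsOpen g.U
  sm : ∀ g ∈ P, ContDiffOn ℝ ∞ g.f g.U
  der : ∀ g ∈ P, ∀ z ∈ g.U, HasFDerivAt g.f (g.L z : E →L[ℝ] E) z
  sym : ∀ g ∈ P, ∀ z ∈ g.U, ∀ v w, om (g.L z v) (g.L z w) = sg g.s * om v w
  eqv : ∀ g ∈ P, ∀ z ∈ g.U, z ∈ W → g.f z ∈ W → ∀ v,
    pr (π (g.f z)) g.s (g.L z v) = g.L z (π z v)
  flip : ∀ O, Sub O W → ∃ g ∈ P, g.s = true ∧ ∃ z ∈ g.U, z ∈ O ∧ g.f z ∈ O
  per : ∀ O, Sub O W → ∃ g ∈ P, ∃ z ∈ O, Per π g z

/-- the class of families of Lie algebras -/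
structure Cls (om : E →L[ℝ] E →L[ℝ] ℝ) (W : Set E) (π : E → E →L[ℝ] E) (P : Set (Mv E))
    (O : Set E) (h : E → Submodule ℝ (E →L[ℝ] E)) : Prop where
  sub : Sub O W
  sm : Sm h O
  lie : ∀ z ∈ O, IsLie (h z)
  sp : ∀ z ∈ O, ∀ X ∈ h z, ∀ v w, om (X v) w + om v (X w) = 0
  tr0 : ∀ z ∈ O, ∀ X ∈ h z, ∀ Y ∈ h z, tr (π z * (X * Y - Y * X)) = 0
  eqv : ∀ g ∈ P, ∀ z ∈ g.U, z ∈ O → g.f z ∈ O → ∀ X,
    X ∈ h z ↔ (g.L z).conjContinuousAlgEquiv X ∈ h (g.f z)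
  log : ∀ g ∈ P, ∀ z ∈ O, Per π g z → ∀ D, IsLog (g.L z) D → D ∈ h z

/-- equivariant pair of families (exchanged by the flips) -/
def Eqv (P : Set (Mv E)) (O : Set E) (Y : Bool → E → Submodule ℝ E) : Prop :=
  ∀ g ∈ P, ∀ z ∈ g.U, z ∈ O → g.f z ∈ O → ∀ b v, v ∈ Y b z ↔ g.L z v ∈ Y (xor b g.s) (g.f z)

/-- `Y z ⊆ Ch ((Y' z)^ω)`: `d(i_X om)(u, w) = 0` for sections `X` of `Y'`, `u ∈ Y`, `w ⊥ Y'` -/
def InCh (om : E →L[ℝ] E →L[ℝ] ℝ) (Y Y' : E → Submodule ℝ E) (z : E) : Prop :=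
  ∀ X : E → E, DifferentiableAt ℝ X z → (∀ᶠ z' in 𝓝 z, X z' ∈ Y' z') →
    ∀ u ∈ Y z, ∀ w, (∀ y ∈ Y' z, om y w = 0) → om (fderiv ℝ X z u) w = om (fderiv ℝ X z w) u

/-- the output: `Y false = Y_u`, `Y true = Y_s` -/
structure Out (om : E →L[ℝ] E →L[ℝ] ℝ) (W : Set E) (π : E → E →L[ℝ] E) (P : Set (Mv E))
    (O : Set E) (Y : Bool → E → Submodule ℝ E) : Prop where
  sub : Sub O W
  sm : ∀ b, Sm (Y b) O
  nz : ∀ b, ∀ z ∈ O, Y b z ≠ ⊥
  le : ∀ b, ∀ z ∈ O, ∀ v ∈ Y b z, pr (π z) b v = v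
  iso : ∀ b, ∀ z ∈ O, ∀ u ∈ Y b z, ∀ v ∈ Y (!b) z, om u v = 0
  eqv : Eqv P O Y
  ch : ∀ b, ∀ z ∈ O, InCh om (Y b) (Y (!b)) z

end Defs

/-- MAIN: either the splitting is smooth on an open set, or there is an isotropic pair -/
def HmS : Prop := ∀ (E : Type) [NormedAddCommGroup E] [NormedSpace ℝ E] [FiniteDimensional ℝ E]
  (om : E →L[ℝ] E →L[ℝ] ℝ) (W : Set E) (π : E → E →L[ℝ] E) (P : Set (Mv E)), PG om W π P →
  (∃ O h, Cls om W π P O h) →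
  (∃ O, Sub O W ∧ ContDiffOn ℝ ∞ π O) ∨ ∃ O Y, Out om W π P O Y

/-! ### the kit (SB, LOG) -/

/-- the rank of a smooth family is locally constant -/
def RkS : Prop := ∀ (E F : Type) [NormedAddCommGroup E] [NormedSpace ℝ E] [FiniteDimensional ℝ E]
  [NormedAddCommGroup F] [NormedSpace ℝ F] [FiniteDimensional ℝ F]
  (M : E → Submodule ℝ F) (O : Set E), IsOpen O → Sm M O → ∀ z ∈ O,
  ∀ᶠ z' in 𝓝 z, finrank ℝ (M z') = finrank ℝ (M z)

/-- a family generated by smooth sections is smooth near a point of maximal rank -/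
def ExtS : Prop := ∀ (E F : Type) [NormedAddCommGroup E] [NormedSpace ℝ E] [FiniteDimensional ℝ E]
  [NormedAddCommGroup F] [NormedSpace ℝ F] [FiniteDimensional ℝ F]
  (M : E → Submodule ℝ F) (O : Set E), IsOpen O → O.Nonempty → Ext M O →
  ∃ O', Sub O' O ∧ Sm M O'

/-- the kernel of a smooth family of maps is smooth near a point of maximal rank -/
def KerS : Prop := ∀ (E F G : Type) [NormedAddCommGroup E] [NormedSpace ℝ E] [FiniteDimensional ℝ E]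
  [NormedAddCommGroup F] [NormedSpace ℝ F] [FiniteDimensional ℝ F]
  [NormedAddCommGroup G] [NormedSpace ℝ G] [FiniteDimensional ℝ G]
  (T : E → F →L[ℝ] G) (M : E → Submodule ℝ F) (O : Set E), IsOpen O → O.Nonempty →
  ContDiffOn ℝ ∞ T O → (∀ z ∈ O, ∀ v, v ∈ M z ↔ T z v = 0) → ∃ O', Sub O' O ∧ Sm M O'

/-- the logarithm at a hyperbolic fixed point -/
def LogS : Prop := ∀ (E : Type) [NormedAddCommGroup E] [NormedSpace ℝ E] [FiniteDimensional ℝ E]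
  (L : E ≃L[ℝ] E) (p : E →L[ℝ] E), p * p = p → (∀ v, p (L v) = L (p v)) → Hyb L p →
  ∃ D, IsLog L D ∧ ∃ (ι : Type) (_ : Fintype ι) (b : Basis ι ℝ E) (r : ι → ℝ),
    ∀ i, D (b i) = r i • b i ∧ ((0 < r i ∧ p (b i) = b i) ∨ (r i < 0 ∧ p (b i) = 0))

/-- a trilinear form fixed by `L` is killed by the logarithm -/
def Log3S : Prop := ∀ (E : Type) [NormedAddCommGroup E] [NormedSpace ℝ E] [FiniteDimensional ℝ E]
  (L : E ≃L[ℝ] E) (D : E →L[ℝ] E) (t : E →L[ℝ] E →L[ℝ] E →L[ℝ] ℝ) (N₁ N₂ N₃ : Submodule ℝ E),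
  IsLog L D → (∀ v ∈ N₁, L v ∈ N₁) → (∀ v ∈ N₂, L v ∈ N₂) → (∀ v ∈ N₃, L v ∈ N₃) →
  (∀ u ∈ N₁, ∀ v ∈ N₂, ∀ w ∈ N₃, t (L u) (L v) (L w) = t u v w) → TInv t N₁ N₂ N₃ D

end Crest.Agent.N221.Hm
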