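import Crest.Agent.N221.Hm.All
import Crest.Agent.N221.Hu.JM

/-! Row 221, block HU-MAIN: the closed statement `HmS`. -/

namespace Crest.Agent.N221.Hm

/-- The main hull statement, with no hypothesis. -/
theorem hmS : HmS := hm_of_alg Hu.jS Hu.mS Hu.eS

end Crest.Agent.N221.Hm
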