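import Crest.Agent.N221.Hm.Stm
import Crest.Agent.N221.Hu.SB2

/-! Row 221, block Hm (helper67): `AlS`, envelope, radical, purity by density of the periodic
points, smooth representative of the projector. -/

set_option autoImplicit false
set_option linter.unusedSectionVars false
set_option linter.unusedVariables false
set_option maxSynthPendingDepth 3

open Set Filter Topology Module
open scoped ContDiff

noncomputable section

namespace Crest.Agent.N221.Hm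

open Hu

namespace AlP

variable {E : Type} [NormedAddCommGroup E] [NormedSpace ℝ E] [FiniteDimensional ℝ E]
  {om : E →L[ℝ] E →L[ℝ] ℝ} {W O O' : Set E} {π : E → E →L[ℝ] E} {P : Set (Mv E)}
  {h : E → Submodule ℝ (E →L[ℝ] E)}

lemma cls_mono (hC : Cls om W π P O h) (hs : Sub O' O) : Cls om W π P O' h where
  sub := ⟨hs.opn, hs.ne, hs.sub.trans hC.sub.sub⟩
  sm := by
    obtain ⟨p, h1, h2⟩ := hC.sm
    exact ⟨p, h1.mono hs.sub, fun z hz => h2 z (hs.sub hz)⟩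
  lie := fun z hz => hC.lie z (hs.sub hz)
  sp := fun z hz => hC.sp z (hs.sub hz)
  tr0 := fun z hz => hC.tr0 z (hs.sub hz)
  eqv := fun g hg z hz h1 h2 => hC.eqv g hg z hz (hs.sub h1) (hs.sub h2)
  log := fun g hg z hz => hC.log g hg z (hs.sub hz)

/-- purity holds at the periodic points, hence frequently near every point -/
lemma pur_freq (hL : LogS) (hP : PurS) (hG : PG om W π P) (hC : Cls om W π P O h) {z : E}
    (hz : z ∈ O) : ∃ᶠ y in 𝓝 z, π y ∈ env (h y) ∧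
      ∀ a ∈ env (h y), π y * a - a * π y ∈ rad (env (h y)) := by
  rw [frequently_nhds_iff]
  intro U hzU hU
  obtain ⟨g, hg, y, hy, hper⟩ := hG.per (U ∩ O)
    ⟨hU.inter hC.sub.opn, ⟨z, hzU, hz⟩, fun y hy => hC.sub.sub hy.2⟩
  have hyW := hC.sub.sub hy.2
  have hcomm : ∀ v, π y (g.L y v) = g.L y (π y v) := fun v => by
    have := hG.eqv g hg y hper.mem hyW (by rw [hper.fix]; exact hyW) v
    rwa [hper.fix, hper.s] at this
  obtain ⟨D, hD, hdiag⟩ := hL E (g.L y) (π y) (hG.idem y hyW) hcomm hper.hyb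
  exact ⟨y, hy.1, hP E (h y) D (π y)
    ⟨hC.lie y hy.2, hC.log g hg y hy.2 hper D hD, hdiag, hC.tr0 y hy.2⟩⟩

end AlP

open AlP in
theorem alS (hL : LogS) (hP : PurS) (hE : ES) (hJ : JS) : AlS := by
  intro E _ _ _ om W π P O h hG hC
  obtain ⟨ph, hph, hprj⟩ := hC.sm
  have h0 : ∀ y ∈ O, SB.SmAt ∞ h y := fun y hy =>
    ⟨ph, SB.Cn.of_on hph hC.sub.opn hy, by
      filter_upwards [hC.sub.opn.mem_nhds hy] with x hx using hprj x hx⟩
  obtain ⟨y1, hy1, hA1⟩ := SB.Gen.exists_smAt hC.sub.opn hC.sub.ne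
    fun y hy => SB.Gen.env (h0 y hy).gen
  obtain ⟨V1, hV1, hyV1, hs1, -, hA, pA, hpA, hpA'⟩ := hA1.shrink hC.sub.opn hy1
  obtain ⟨y2, hy2, hJ1⟩ := SB.Cut.exists_smAt hV1 ⟨y1, hyV1⟩
    fun y hy => SB.Cut.rad (A := fun y => env (h y)) (hA y hy)
  obtain ⟨V, hV, hyV, hs2, -, hJ2, pJ, hpJ, hpJ'⟩ := hJ1.shrink hV1 hy2
  have hsub : Sub V O := ⟨hV, ⟨y2, hyV⟩, hs2.trans hs1⟩
  have hcont : ∀ z ∈ V, ContinuousAt π z := fun z hz =>
    hG.cont.continuousAt (mem_of_superset (hV.mem_nhds hz) (hsub.sub.trans hC.sub.sub))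
  have hmem : ∀ z ∈ V, π z ∈ env (h z) := fun z hz =>
    SB.Cut.mem_of_freq (hA z (hs2 hz)).cut (hcont z hz)
      ((pur_freq hL hP hG hC (hsub.sub hz)).mono fun y hy => hy.1)
  have hcen : ∀ z ∈ V, ∀ a ∈ env (h z), π z * a - a * π z ∈ rad (env (h z)) := fun z hz =>
    SB.Cut.map_mem_of_freq (hJ2 z hz).cut (hA z (hs2 hz))
      (μ := fun y => ContinuousLinearMap.mul ℝ (E →L[ℝ] E) (π y) -
        (ContinuousLinearMap.mul ℝ (E →L[ℝ] E)).flip (π y))
      (((ContinuousLinearMap.mul ℝ (E →L[ℝ] E)).continuous.continuousAt.comp (hcont z hz)).sub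
        ((ContinuousLinearMap.mul ℝ (E →L[ℝ] E)).flip.continuous.continuousAt.comp (hcont z hz)))
      ((pur_freq hL hP hG hC (hsub.sub hz)).mono fun y hy => hy.2)
  refine ⟨V, fun z => π z - pJ z (π z), hsub, cls_mono hC hsub,
    ⟨pA, hpA.mono hs2, fun z hz => hpA' z (hs2 hz)⟩, ⟨pJ, hpJ, hpJ'⟩, hmem, hcen,
    fun z hz => ContDiffAt.contDiffWithinAt ?_, fun z hz => ?_⟩
  · refine hE E E (fun y => env (h y)) π pA pJ z (hpA.contDiffAt (hV1.mem_nhds (hs2 hz)))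
      (hpJ.contDiffAt (hV.mem_nhds hz)) (hcont z hz) ?_
    filter_upwards [hV.mem_nhds hz] with y hy
    exact ⟨(hpA' y (hs2 hy)).1, (hpA' y (hs2 hy)).2, (hpJ' y hy).1, (hpJ' y hy).2, hmem y hy,
      hG.idem y (hC.sub.sub (hsub.sub hy)), hcen y hy⟩
  · rw [sub_sub_cancel_left]
    exact (rad (env (h z))).neg_mem ((hpJ' z hz).1 (π z))

end Crest.Agent.N221.Hm
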