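import Crest.Agent.N221.Hm.Kit

/-! Row 221, block Hm: the sub-pair `K`. -/

set_option autoImplicit false
set_option linter.unusedSectionVars false
set_option linter.unusedVariables false
set_option maxSynthPendingDepth 3

open Set Filter Topology Module
open scoped ContDiff

noncomputable section

namespace Crest.Agent.N221.Hm

open Hu

variable {E : Type} [NormedAddCommGroup E] [NormedSpace ℝ E] [FiniteDimensional ℝ E]

namespace KP

/-- exchange of the two last slots -/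
def fl : (E →L[ℝ] E →L[ℝ] ℝ) →L[ℝ] (E →L[ℝ] E →L[ℝ] ℝ) :=
  ((ContinuousLinearMap.flipₗᵢ ℝ E E ℝ).toContinuousLinearEquiv : _ →L[ℝ] _)

/-- exchange of the first and the last slot -/
def sw (t : E →L[ℝ] E →L[ℝ] E →L[ℝ] ℝ) : E →L[ℝ] E →L[ℝ] E →L[ℝ] ℝ := fl ∘L (fl ∘L t).flip

lemma sw_apply (t : E →L[ℝ] E →L[ℝ] E →L[ℝ] ℝ) (u v w : E) : sw t u v w = t w v u := rfl

lemma tinv_sw {t : E →L[ℝ] E →L[ℝ] E →L[ℝ] ℝ} {A B C : Submodule ℝ E} {X : E →L[ℝ] E}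
    (h : TInv t A B C X) : TInv (sw t) C B A X := fun u hu v hv w hw => by
  have := h w hw v hv u hu
  simp only [sw_apply]
  linarith

/-- left kernel of `t` on `B × C` -/
def an (t : E →L[ℝ] E →L[ℝ] E →L[ℝ] ℝ) (B C : Submodule ℝ E) : Submodule ℝ E where
  carrier := {u | ∀ v ∈ B, ∀ w ∈ C, t u v w = 0}
  add_mem' := fun h h' v hv w hw => by simp [h v hv w hw, h' v hv w hw]
  zero_mem' := fun v _ w _ => by simp
  smul_mem' := fun c u h v hv w hw => by simp [h v hv w hw]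

lemma an_inv {t : E →L[ℝ] E →L[ℝ] E →L[ℝ] ℝ} {A N B C : Submodule ℝ E} {X : E →L[ℝ] E}
    (h : TInv t A N C X) (le : B ≤ N) (hB : ∀ v ∈ B, X v ∈ B) (hC : ∀ v ∈ C, X v ∈ C) {u : E}
    (hu : u ∈ A) (h0 : u ∈ an t B C) : X u ∈ an t B C := fun v hv w hw => by
  have := h u hu v (le hv) w hw
  rwa [h0 _ (hB v hv) w hw, h0 v hv _ (hC w hw), add_zero, add_zero] at this

lemma an_cj {t t' : E →L[ℝ] E →L[ℝ] E →L[ℝ] ℝ} {B C B' C' : Submodule ℝ E} (L : E ≃L[ℝ] E)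
    {c : ℝ} (hc : c ≠ 0) {u : E} (hB : ∀ v, v ∈ B ↔ L v ∈ B') (hC : ∀ v, v ∈ C ↔ L v ∈ C')
    (ht : ∀ v ∈ B, ∀ w ∈ C, t' (L u) (L v) (L w) = c * t u v w) :
    u ∈ an t B C ↔ L u ∈ an t' B' C' := by
  refine ⟨fun H v hv w hw => ?_, fun H v hv w hw => ?_⟩
  · obtain ⟨v, rfl⟩ := L.surjective v
    obtain ⟨w, rfl⟩ := L.surjective w
    rw [ht v ((hB v).2 hv) w ((hC w).2 hw), H v ((hB v).2 hv) w ((hC w).2 hw), mul_zero]
  · have := H _ ((hB v).1 hv) _ ((hC w).1 hw)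
    rw [ht v hv w hw] at this
    exact (mul_eq_zero.1 this).resolve_left hc

variable {A A' : Subalgebra ℝ (E →L[ℝ] E)} {q q' : E →L[ℝ] E} {N N' : Submodule ℝ E}

lemma gen_le (hq : q ∈ A) (hN : Inv A N) : gen A q N ≤ N := by
  refine Submodule.span_le.2 ?_
  rintro _ ⟨a, ha, _, ⟨v, hv, rfl⟩, rfl⟩
  exact hN a ha _ (hN q hq v hv)

lemma gen_inv {X : E →L[ℝ] E} (hX : X ∈ A) : ∀ v ∈ gen A q N, X v ∈ gen A q N := by
  refine fun v hv => (Submodule.span_le (p := (gen A q N).comap (X : E →ₗ[ℝ] E))).2 ?_ hv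
  rintro _ ⟨a, ha, v, hv, rfl⟩
  exact Submodule.subset_span ⟨X * a, A.mul_mem hX ha, v, hv, rfl⟩

lemma mem_gen {v : E} (hv : v ∈ N) : q v ∈ gen A q N :=
  Submodule.subset_span ⟨1, A.one_mem, _, ⟨v, hv, rfl⟩, rfl⟩

lemma gen_cj_le (L : E ≃L[ℝ] E) (hA : ∀ a ∈ A, L.conjContinuousAlgEquiv a ∈ A')
    (hq : ∀ v, q' (L v) = L (q v)) (hN : ∀ v ∈ N, L v ∈ N') :
    ∀ v ∈ gen A q N, L v ∈ gen A' q' N' := by
  refine fun v hv => (Submodule.span_le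
    (p := (gen A' q' N').comap ((L : E →L[ℝ] E) : E →ₗ[ℝ] E))).2 ?_ hv
  rintro _ ⟨a, ha, _, ⟨v, hv, rfl⟩, rfl⟩
  refine Submodule.subset_span ⟨_, hA a ha, _, ⟨L v, hN v hv, rfl⟩, ?_⟩
  exact (congrArg _ (hq v)).trans (cj_apply L a _)

lemma gen_cj (L : E ≃L[ℝ] E) (hA : ∀ a, a ∈ A ↔ L.conjContinuousAlgEquiv a ∈ A')
    (hq : ∀ v, q' (L v) = L (q v)) (hN : ∀ v, v ∈ N ↔ L v ∈ N') (v : E) :
    v ∈ gen A q N ↔ L v ∈ gen A' q' N' := by
  refine ⟨gen_cj_le L (fun a ha => (hA a).1 ha) hq (fun v hv => (hN v).1 hv) v, fun hv => ?_⟩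
  have := gen_cj_le (q' := q) (N' := N) (A' := A) L.symm (fun a ha => (hA _).2 (by rwa [cj_symm']))
    (fun v => L.injective (by rw [← hq]; simp)) (fun v hv => (hN _).2 (by simpa using hv)) _ hv
  simpa using this

lemma an_cut {t : E → E →L[ℝ] E →L[ℝ] E →L[ℝ] ℝ} {B C : E → Submodule ℝ E} {z : E}
    (hB : SB.Gen ∞ B z) (hC : SB.Gen ∞ C z) (ht : ∀ u v w, SB.Cn ∞ (fun x => t x u v w) z) :
    SB.Cut ∞ (fun x => an (t x) (B x) (C x)) z :=
  SB.Cut.ann₂ hB hC ht (Eventually.of_forall fun _ _ => Iff.rfl)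

lemma cn3 {t : E → E →L[ℝ] E →L[ℝ] E →L[ℝ] ℝ} {z : E} (ht : SB.Cn ∞ t z) (u v w : E) :
    SB.Cn ∞ (fun x => t x u v w) z :=
  ((ht.apply (SB.Cn.const u)).apply (SB.Cn.const v)).apply (SB.Cn.const w)

/-- `A · pr c · (Y b)^ω` -/
def SS (om : E →L[ℝ] E →L[ℝ] ℝ) (π : E → E →L[ℝ] E) (h : E → Submodule ℝ (E →L[ℝ] E))
    (Y : Bool → E → Submodule ℝ E) (c b : Bool) (z : E) : Submodule ℝ E :=
  gen (env (h z)) (pr (π z) c) (perp om (Y b z))

/-- the sub-pair -/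
def KK (om : E →L[ℝ] E →L[ℝ] ℝ) (π : E → E →L[ℝ] E) (h : E → Submodule ℝ (E →L[ℝ] E))
    (Y : Bool → E → Submodule ℝ E) (p : Bool → E → E →L[ℝ] E) (b : Bool) (z : E) : Submodule ℝ E :=
  Y b z ⊓ (an (tau om (p (!b)) z) (SS om π h Y (!b) (!b) z) (Y (!b) z) ⊓
    an (sw (tau om (p b) z)) (SS om π h Y (!b) b z) (Y (!b) z))

end KP

open KP

theorem kS (hL : LogS) (hM : MS) (hLY : LYS) (h1 : Tau1S) (h2 : Tau2S) : KS := by
  intro E _ _ _ om W π P O h e Y p G a y nz hp ti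
  have c := a.cls
  have hO := c.sub.opn
  have iN : ∀ b, ∀ z ∈ O, Inv (h z) (perp om (Y b z)) := fun b z hz =>
    perp_inv (c.sp z hz) (y.inv b z hz)
  have le : ∀ d b, ∀ z ∈ O, SS om π h Y d b z ≤ perp om (Y b z) := fun d b z hz =>
    gen_le (pr_mem (a.mem z hz) d) (inv_env (iN b z hz))
  have yp : ∀ b, ∀ z ∈ O, Y b z ≤ perp om (Y (!b) z) := fun b z hz u hu v hv => by
    rw [G.skew, y.iso b z hz u hu v hv, neg_zero]
  have yp' : ∀ b, ∀ z ∈ O, Y (!b) z ≤ perp om (Y b z) := fun b z hz u hu v hv =>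
    y.iso b z hz v hv u hu
  have ti' : ∀ z ∈ O, ∀ X ∈ h z, ∀ b,
      TInv (sw (tau om (p b) z)) (Y b z) (perp om (Y b z)) (Y (!b) z) X := fun z hz X hX b => by
    have := tinv_sw (ti z hz X hX (!b))
    rwa [Bool.not_not] at this
  obtain ⟨O₁, s₁, hN⟩ := perp_sm (om := om) hO c.sub.ne y.sm
  have gS : ∀ d b, ∀ z ∈ O₁, SB.Gen ∞ (SS om π h Y d b) z := fun d b z hz => by
    have he : SB.Cn ∞ (fun x => pr (e x) d) z := by
      cases d
      exacts [SB.Cn.of_on a.sme hO (s₁.sub hz), (SB.Cn.of_on a.sme hO (s₁.sub hz)).one_sub]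
    refine (SB.Gen.gen (a.smA.smAt hO (s₁.sub hz)).gen
      (p := fun x => pr (e x) d ^ (finrank ℝ E + 1)) (he.mono fun x hx => hx.pow _)
      ((hN b).smAt s₁.opn hz).gen).congr ?_
    filter_upwards [hO.mem_nhds (s₁.sub hz)] with x hx
    refine hM E _ _ _ _ (pr_mem (a.mem x hx) d) (pr_idem (G.idem x (c.sub.sub hx)) d) ?_
      (inv_env (iN b x hx))
    cases d
    · exact a.ej x hx
    · rw [pr_true, pr_true, sub_sub_sub_cancel_left, ← neg_sub]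
      exact neg_mem (a.ej x hx)
  have sT : ∀ b u v w, ∀ z ∈ O, SB.Cn ∞ (fun x => tau om (p b) x u v w) z := fun b u v w z hz =>
    cn3 (SB.Cn.of_on (h1 E om O (Y b) (p b) hO (hp b).1 (hp b).2).1 hO hz) u v w
  have cK : ∀ b, ∀ z ∈ O₁, SB.Cut ∞ (KK om π h Y p b) z := fun b z hz => by
    have gY := ((y.sm (!b)).smAt hO (s₁.sub hz)).gen
    have c1 := an_cut (t := tau om (p (!b))) (gS (!b) (!b) z hz) gY
      fun u v w => sT _ u v w z (s₁.sub hz)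
    have c2 := an_cut (t := fun x => sw (tau om (p b) x)) (gS (!b) b z hz) gY
      fun u v w => sT b w v u z (s₁.sub hz)
    exact ((y.sm b).smAt hO (s₁.sub hz)).cut.inf (c1.inf c2)
  obtain ⟨O₂, s₂, hK⟩ := sm2_of_cut s₁.opn s₁.ne cK
  have s := s₂.trans s₁
  refine ⟨O₂, KK om π h Y p, s, ⟨hK, fun b z hz v hv => y.le b z (s.sub hz) v hv.1,
    fun b z hz u hu v hv => y.iso b z (s.sub hz) u hu.1 v hv.1, ?_, fun b z hz X hX u hu => ?_,
    fun b z hz j hj u hu => y.kil b z (s.sub hz) j hj u hu.1⟩, ?_,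
    fun z hz => ⟨fun b => inf_le_left, fun hk b u hu v hv w hw => ?_⟩⟩
  · intro g hg z hz m1 m2 b u
    replace m1 := s.sub m1
    replace m2 := s.sub m2
    have eY := y.eqv g hg z hz m1 m2
    have eS : ∀ d b v, v ∈ SS om π h Y d b z ↔
        g.L z v ∈ SS om π h Y (xor d g.s) (xor b g.s) (g.f z) := fun d b =>
      gen_cj (g.L z) (env_cj _ (c.eqv g hg z hz m1 m2))
        (G.pr_eqv hg hz (c.sub.sub m1) (c.sub.sub m2) d) (perp_eqv G y.eqv g hg z hz m1 m2 b)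
    have eT := h2 E om W π P O Y p G hO y.eqv hp g hg z hz m1 m2
    rw [KK, KK, ← not_xor']
    refine ⟨fun H => ⟨(eY b u).1 H.1, ?_⟩, fun H => ⟨(eY b u).2 H.1, ?_⟩⟩
    · exact (and_congr (an_cj _ (sg_ne g.s) (eS _ _) (eY _) fun v hv w hw =>
        eT _ u (yp b z m1 H.1) v (le _ _ z m1 hv) w hw) (an_cj _ (sg_ne g.s) (eS _ _) (eY _)
          fun v hv w hw => eT _ w (yp' b z m1 hw) v (le _ _ z m1 hv) u H.1)).1 H.2
    · have hu := (eY b u).2 H.1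
      exact (and_congr (an_cj _ (sg_ne g.s) (eS _ _) (eY _) fun v hv w hw =>
        eT _ u (yp b z m1 hu) v (le _ _ z m1 hv) w hw) (an_cj _ (sg_ne g.s) (eS _ _) (eY _)
          fun v hv w hw => eT _ w (yp' b z m1 hw) v (le _ _ z m1 hv) u hu)).2 H.2
  · replace hz := s.sub hz
    have hX' : X ∈ env (h z) := Algebra.subset_adjoin hX
    exact ⟨y.inv b z hz X hX u hu.1, an_inv (ti z hz X hX b) (le _ _ z hz) (gen_inv hX')
      (y.inv _ z hz X hX) hu.1 hu.2.1, an_inv (ti' z hz X hX b) (le _ _ z hz) (gen_inv hX')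
      (y.inv _ z hz X hX) hu.1 hu.2.2⟩
  · obtain ⟨g, hg, z, hz₂, pe⟩ := G.per O₂ (s.trans c.sub)
    have hz := s.sub hz₂
    have zW := c.sub.sub hz
    obtain ⟨D, hD, dg⟩ := hL E (g.L z) (π z) (G.idem z zW) (fun v => by
      have := G.eqv g hg z pe.mem zW (pe.fix.symm ▸ zW) v
      rwa [pe.fix, pe.s] at this) pe.hyb
    rcases hLY E (h z) D (π z) (Y false z) (Y true z) _ _ (tau om (p true) z)
      (sw (tau om (p false) z)) ⟨c.lie z hz, c.log g hg z hz pe D hD, dg, c.tr0 z hz⟩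
      (y.inv _ z hz) (y.inv _ z hz) (iN true z hz) (iN false z hz) (nz _ z hz) (nz _ z hz)
      (y.le false z hz) (fun w hw => by simpa [pr] using y.le true z hz w hw)
      (fun j hj => ⟨y.kil _ z hz j hj, y.kil _ z hz j hj⟩)
      (fun X hX => ⟨ti z hz X hX false, ti' z hz X hX false⟩) with ⟨u, hu, u0, H, H'⟩ | ⟨u, hu, u0, H, H'⟩
    · exact ⟨z, hz₂, false, (Submodule.ne_bot_iff _).2 ⟨u, ⟨hu, H, H'⟩, u0⟩⟩
    · exact ⟨z, hz₂, true, (Submodule.ne_bot_iff _).2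
        ⟨u, ⟨hu, fun v hv w hw => H' w hw v hv, fun v hv w hw => H w hw v hv⟩, u0⟩⟩
  · have k1 := ((hk b).ge hu).2.1 _ (mem_gen hv) w hw
    have k2 := ((hk (!b)).ge hw).2.2
    rw [Bool.not_not] at k2
    have k3 : tau om (p (!b)) z u (pr (π z) b v) w = 0 := k2 _ (mem_gen hv) u hu
    rw [← pr_add (π z) b v, map_add, ContinuousLinearMap.add_apply, k3, zero_add]
    exact k1

end Crest.Agent.N221.Hm
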