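import Crest.Agent.N221.Hm.Stm
import Crest.Agent.N221.Hu.SB2

/-! Row 221, block Hm: the stabiliser of the two tensors is in the class (`StabS`). -/

set_option autoImplicit false
set_option linter.unusedSectionVars false
set_option linter.unusedVariables false
set_option maxSynthPendingDepth 3

open Set Filter Topology Module
open scoped ContDiff

noncomputable section

namespace Crest.Agent.N221.Hm

open Hu SB

namespace St

variable {E : Type} [NormedAddCommGroup E] [NormedSpace ℝ E]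
  {t t' : E →L[ℝ] E →L[ℝ] E →L[ℝ] ℝ} {N₁ N₂ N₃ N₁' N₂' N₃' : Submodule ℝ E}

/-- the operators that kill `t` -/
def ti (t : E →L[ℝ] E →L[ℝ] E →L[ℝ] ℝ) (N₁ N₂ N₃ : Submodule ℝ E) : Submodule ℝ (E →L[ℝ] E) where
  carrier := {X | TInv t N₁ N₂ N₃ X}
  add_mem' := fun h h' u hu v hv w hw => by
    have h1 := h u hu v hv w hw
    have h2 := h' u hu v hv w hw
    simp only [map_add, add_apply]
    linarith
  zero_mem' := fun u _ v _ w _ => by simp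
  smul_mem' := fun c X h u hu v hv w hw => by
    have h1 := h u hu v hv w hw
    simp only [map_smul, smul_apply, smul_eq_mul]
    rw [← mul_add, ← mul_add, h1, mul_zero]

lemma ti_lie {X Z : E →L[ℝ] E} (a₁ : ∀ v ∈ N₁, X v ∈ N₁) (a₂ : ∀ v ∈ N₂, X v ∈ N₂)
    (a₃ : ∀ v ∈ N₃, X v ∈ N₃) (b₁ : ∀ v ∈ N₁, Z v ∈ N₁) (b₂ : ∀ v ∈ N₂, Z v ∈ N₂)
    (b₃ : ∀ v ∈ N₃, Z v ∈ N₃) (h : TInv t N₁ N₂ N₃ X) (h' : TInv t N₁ N₂ N₃ Z) :
    TInv t N₁ N₂ N₃ (X * Z - Z * X) := fun u hu v hv w hw => by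
  have h1 := h _ (b₁ u hu) v hv w hw
  have h2 := h u hu _ (b₂ v hv) w hw
  have h3 := h u hu v hv _ (b₃ w hw)
  have h4 := h' _ (a₁ u hu) v hv w hw
  have h5 := h' u hu _ (a₂ v hv) w hw
  have h6 := h' u hu v hv _ (a₃ w hw)
  simp only [map_sub, sub_apply, mul_apply_eq_comp]
  linarith

lemma ti_conj (L : E ≃L[ℝ] E) {c : ℝ} (hc : c ≠ 0) (e₁ : ∀ v, v ∈ N₁ ↔ L v ∈ N₁')
    (e₂ : ∀ v, v ∈ N₂ ↔ L v ∈ N₂') (e₃ : ∀ v, v ∈ N₃ ↔ L v ∈ N₃')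
    (ht : ∀ u ∈ N₁, ∀ v ∈ N₂, ∀ w ∈ N₃, t' (L u) (L v) (L w) = c * t u v w) {X : E →L[ℝ] E}
    (a₁ : ∀ v ∈ N₁, X v ∈ N₁) (a₂ : ∀ v ∈ N₂, X v ∈ N₂) (a₃ : ∀ v ∈ N₃, X v ∈ N₃) :
    TInv t N₁ N₂ N₃ X ↔ TInv t' N₁' N₂' N₃' (L.conjContinuousAlgEquiv X) := by
  have e : ∀ u ∈ N₁, ∀ v ∈ N₂, ∀ w ∈ N₃, t' (L.conjContinuousAlgEquiv X (L u)) (L v) (L w) +
      t' (L u) (L.conjContinuousAlgEquiv X (L v)) (L w) +
      t' (L u) (L v) (L.conjContinuousAlgEquiv X (L w)) =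
      c * (t (X u) v w + t u (X v) w + t u v (X w)) := fun u hu v hv w hw => by
    simp only [ContinuousLinearEquiv.conjContinuousAlgEquiv_apply_apply, L.symm_apply_apply]
    rw [ht _ (a₁ u hu) v hv w hw, ht u hu _ (a₂ v hv) w hw, ht u hu v hv _ (a₃ w hw)]
    ring
  refine ⟨fun h u hu v hv w hw => ?_, fun h u hu v hv w hw => ?_⟩
  · obtain ⟨u, rfl⟩ := L.surjective u
    obtain ⟨v, rfl⟩ := L.surjective v
    obtain ⟨w, rfl⟩ := L.surjective w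
    rw [← e₁] at hu
    rw [← e₂] at hv
    rw [← e₃] at hw
    rw [e u hu v hv w hw, h u hu v hv w hw, mul_zero]
  · have h1 := h _ ((e₁ u).1 hu) _ ((e₂ v).1 hv) _ ((e₃ w).1 hw)
    rw [e u hu v hv w hw] at h1
    exact (mul_eq_zero.1 h1).resolve_left hc

lemma sg_ne (b : Bool) : sg b ≠ 0 := by cases b <;> simp [sg]

lemma perp_conj {om : E →L[ℝ] E →L[ℝ] ℝ} (L : E ≃L[ℝ] E) {c : ℝ} (hc : c ≠ 0)
    (ho : ∀ v w, om (L v) (L w) = c * om v w) (e : ∀ v, v ∈ N₁ ↔ L v ∈ N₁') (v : E) :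
    v ∈ perp om N₁ ↔ L v ∈ perp om N₁' := by
  refine ⟨fun h y hy => ?_, fun h y hy => ?_⟩
  · obtain ⟨y, rfl⟩ := L.surjective y
    rw [ho, h y ((e y).2 hy), mul_zero]
  · have h1 := h _ ((e y).1 hy)
    rw [ho] at h1
    exact (mul_eq_zero.1 h1).resolve_left hc

lemma smAt [FiniteDimensional ℝ E] {F : Type} [NormedAddCommGroup F] [NormedSpace ℝ F]
    [FiniteDimensional ℝ F] {M : E → Submodule ℝ F} {O : Set E} (h : Sm M O) (hO : IsOpen O) {z : E}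
    (hz : z ∈ O) : SmAt ∞ M z := by
  obtain ⟨p, h1, h2⟩ := h
  exact ⟨p, Cn.of_on h1 hO hz, eventually_of_mem (hO.mem_nhds hz) h2⟩

end St

open St

theorem stabS (h3 : Log3S) (h1 : Tau1S) (h2 : Tau2S) : StabS := by
  intro E _ _ _ om W π P O h Y p hG hC hY hp
  have hO := hC.sub.opn
  have sY : ∀ b, ∀ z ∈ O, SmAt ∞ (Y b) z := fun b z hz => smAt (hY.sm b) hO hz
  have cP : ∀ b, ∀ z ∈ O, Cut ∞ (fun y => perp om (Y b y)) z := fun b z hz =>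
    Cut.ann (sY b z hz).gen (μ := fun _ => om.flip) (Cn.const _) (.of_forall fun _ _ => Iff.rfl)
  obtain ⟨O1, a1, b1, c1, d1⟩ := Cut.shrink hO hC.sub.ne (cP true)
  obtain ⟨O2, a2, b2, c2, d2⟩ := Cut.shrink a1 b1 fun z hz => cP false z (c1 hz)
  have sP : ∀ b, ∀ z ∈ O2, SmAt ∞ (fun y => perp om (Y b y)) z := fun b z hz => by
    cases b
    exacts [d2 z hz, d1 z (c2 hz)]
  let T : Bool → E → Submodule ℝ (E →L[ℝ] E) := fun b z =>
    ti (tau om (p (!b)) z) (Y b z) (perp om (Y (!b) z)) (Y (!b) z)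
  have cT : ∀ b, ∀ z ∈ O2, Cut ∞ (T b) z := fun b z hz => by
    have hz' := c1 (c2 hz)
    have h4 := Cn.of_on (h1 E om O (Y (!b)) (p (!b)) hO (hp _).1 (hp _).2).1 hO hz'
    exact Cut.tinv (sY b z hz').gen (sP (!b) z hz).gen (sY (!b) z hz').gen
      (fun u v w => ((h4.apply (Cn.const u)).apply (Cn.const v)).apply (Cn.const w))
      (.of_forall fun _ _ => Iff.rfl)
  obtain ⟨z0, hz0, h4⟩ := Cut.exists_smAt (F := fun z => h z ⊓ (T true z ⊓ T false z)) a2 b2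
    fun z hz => (smAt hC.sm hO (c1 (c2 hz))).cut.inf ((cT true z hz).inf (cT false z hz))
  obtain ⟨O', a3, b3, c3, -, -, q, q1, q2⟩ := h4.shrink a2 hz0
  have hs : O' ⊆ O := fun z hz => c1 (c2 (c3 hz))
  have e : ∀ z X, X ∈ h z ⊓ (T true z ⊓ T false z) ↔ X ∈ h z ∧ TI om Y p z X := fun z X =>
    and_congr_right fun _ => ⟨fun a b => by cases b; exacts [a.2, a.1], fun a => ⟨a true, a false⟩⟩
  have iP : ∀ b, ∀ z ∈ O, ∀ X ∈ h z, ∀ v ∈ perp om (Y b z), X v ∈ perp om (Y b z) :=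
    fun b z hz X hX v hv y hy => by
      have h5 := hC.sp z hz X hX y v
      rwa [hv _ (hY.inv b z hz X hX y hy), zero_add] at h5
  have nat : ∀ g ∈ P, ∀ z ∈ g.U, z ∈ O → g.f z ∈ O → ∀ b,
      (∀ v, v ∈ Y (!b) z ↔ g.L z v ∈ Y (!xor b g.s) (g.f z)) ∧
      (∀ v, v ∈ perp om (Y (!b) z) ↔ g.L z v ∈ perp om (Y (!xor b g.s) (g.f z))) ∧
      ∀ u ∈ Y b z, ∀ v ∈ perp om (Y (!b) z), ∀ w ∈ Y (!b) z,
        tau om (p (!xor b g.s)) (g.f z) (g.L z u) (g.L z v) (g.L z w) =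
          sg g.s * tau om (p (!b)) z u v w := fun g hg z hU hz hz' b => by
    rw [← Bool.not_xor]
    have h5 := hY.eqv g hg z hU hz hz' (!b)
    refine ⟨h5, perp_conj _ (sg_ne _) (hG.sym g hg z hU) h5, fun u hu =>
      h2 E om W π P O Y p hG hO hY.eqv hp g hg z hU hz hz' (!b) u fun y hy => ?_⟩
    rw [hG.skew, hY.iso b z hz u hu y hy, neg_zero]
  refine ⟨O', fun z => h z ⊓ (T true z ⊓ T false z), ⟨a3, ⟨z0, b3⟩, hs⟩,
    ⟨⟨a3, ⟨z0, b3⟩, hs.trans hC.sub.sub⟩, ⟨q, q1, q2⟩, fun z hz X hX Z hZ => ?_,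
      fun z hz X hX => hC.sp z (hs hz) X hX.1,
      fun z hz X hX Z hZ => hC.tr0 z (hs hz) X hX.1 Z hZ.1, fun g hg z hU hz hz' X => ?_,
      fun g hg z hz hP D hD => ?_⟩, fun z _ => e z⟩
  · rw [e] at hX hZ ⊢
    exact ⟨hC.lie z (hs hz) X hX.1 Z hZ.1, fun b => ti_lie (hY.inv _ z (hs hz) X hX.1)
      (iP _ z (hs hz) X hX.1) (hY.inv _ z (hs hz) X hX.1) (hY.inv _ z (hs hz) Z hZ.1)
      (iP _ z (hs hz) Z hZ.1) (hY.inv _ z (hs hz) Z hZ.1) (hX.2 b) (hZ.2 b)⟩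
  · rw [e, e, ← hC.eqv g hg z hU (hs hz) (hs hz')]
    refine and_congr_right fun hX => ?_
    have h5 := fun b => ti_conj (g.L z) (sg_ne g.s) (hY.eqv g hg z hU (hs hz) (hs hz') b)
      (nat g hg z hU (hs hz) (hs hz') b).2.1 (nat g hg z hU (hs hz) (hs hz') b).1
      (nat g hg z hU (hs hz) (hs hz') b).2.2 (hY.inv _ z (hs hz) X hX) (iP _ z (hs hz) X hX)
      (hY.inv _ z (hs hz) X hX)
    refine ⟨fun a b => ?_, fun a b => (h5 b).2 (a _)⟩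
    obtain ⟨b, rfl⟩ : ∃ b', b = xor b' g.s := ⟨xor b g.s, by simp⟩
    exact (h5 b).1 (a b)
  · rw [e]
    refine ⟨hC.log g hg z (hs hz) hP D hD, fun b => ?_⟩
    have h5 := hY.eqv g hg z hP.mem (hs hz) (hP.fix.symm ▸ hs hz) b
    have h6 := nat g hg z hP.mem (hs hz) (hP.fix.symm ▸ hs hz) b
    rw [hP.s, hP.fix, Bool.xor_false] at h5 h6
    exact h3 E (g.L z) D _ _ _ _ hD (fun v => (h5 v).1) (fun v => (h6.2.1 v).1)
      (fun v => (h6.1 v).1) fun u hu v hv w hw => (h6.2.2 u hu v hv w hw).trans (one_mul _)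

end Crest.Agent.N221.Hm
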