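import Crest.Agent.N221.Hm.Stm

/-! Row 221, block Hm: the tensor `τ` (leaf Hm-Tau, helper43). -/

set_option autoImplicit false
set_option linter.unusedSectionVars false
set_option linter.unusedVariables false
set_option maxSynthPendingDepth 3

open Set Filter Topology Module
open scoped ContDiff

noncomputable section

namespace Crest.Agent.N221.Hm

theorem tau1S : Tau1S := by
  intro E _ _ _ om O Y p hO hp hY
  have hD : ContDiffOn ℝ ∞ (fderiv ℝ p) O := hp.fderiv_of_isOpen hO (by simp)
  have h1 : ContDiffOn ℝ ∞ (fun z => tr1 om (fderiv ℝ p z)) O :=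
    contDiffOn_const.clm_comp (contDiffOn_const.clm_comp hD)
  refine ⟨h1.sub ((ContinuousLinearMap.flipₗᵢ ℝ E E (E →L[ℝ] ℝ)).contDiff.comp_contDiffOn h1),
    fun z hz X hX hXY u hu v hv => ?_⟩
  have e : X =ᶠ[𝓝 z] fun y => p y (X y) := by
    filter_upwards [hXY, hO.mem_nhds hz] with y h1 h2 using ((hY y h2).2 _ h1).symm
  have hd : DifferentiableAt ℝ p z := (hp.contDiffAt (hO.mem_nhds hz)).differentiableAt (by simp)
  have h2 : ∀ a, fderiv ℝ X z a = p z (fderiv ℝ X z a) + fderiv ℝ p z a (X z) := fun a => by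
    conv_lhs => rw [e.fderiv_eq, fderiv_clm_apply hd hX]
    rfl
  rw [tau_apply, h2 u, h2 v, map_add, map_add, add_apply, add_apply, hv _ ((hY z hz).1 _),
    hu _ ((hY z hz).1 _), zero_add, zero_add]

theorem tau2S : Tau2S := by
  intro E _ _ _ om W π P O Y p H hO hE hp g hg z hz hzO hfz b u hu v hv w hw
  have := FiniteDimensional.complete ℝ E
  have hU := (H.opn g hg).mem_nhds hz
  have hf : ContDiffAt ℝ ∞ g.f z := (H.sm g hg).contDiffAt hU
  have hL : ∀ y ∈ g.U, fderiv ℝ g.f y = g.L y := fun y hy => (H.der g hg y hy).fderiv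
  have hD : DifferentiableAt ℝ (fderiv ℝ g.f) z :=
    (hf.fderiv_right (m := ∞) (by simp)).differentiableAt (by simp)
  have hp' : DifferentiableAt ℝ (p (xor b g.s)) (g.f z) :=
    ((hp _).1.contDiffAt (hO.mem_nhds hfz)).differentiableAt (by simp)
  have hX' : HasFDerivAt (fun y => p (xor b g.s) (g.f y) (g.L z w))
      (((fderiv ℝ (p (xor b g.s)) (g.f z)).flip (g.L z w)) ∘L (g.L z : E →L[ℝ] E)) z := by
    have h1 := (hp'.hasFDerivAt.clm_apply (hasFDerivAt_const (g.L z w) _)).comp z (H.der g hg z hz)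
    simpa [Function.comp_def] using h1
  let X : E → E := fun y => (fderiv ℝ g.f y).inverse (p (xor b g.s) (g.f y) (g.L z w))
  have hX : DifferentiableAt ℝ X z := by
    refine DifferentiableAt.clm_apply
      (DifferentiableAt.comp (g := ContinuousLinearMap.inverse) z ?_ hD) hX'.differentiableAt
    rw [hL z hz]
    exact (contDiffAt_map_inverse (n := 1) (g.L z)).differentiableAt (by simp)
  have hLX : ∀ y ∈ g.U, g.L y (X y) = p (xor b g.s) (g.f y) (g.L z w) := fun y hy => by
    simp [X, hL y hy]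
  have hXz : X z = w := (g.L z).injective (by
    rw [hLX z hz]
    exact ((hp _).2 _ hfz).2 _ ((hE g hg z hz hzO hfz b w).1 hw))
  have hXY : ∀ᶠ y in 𝓝 z, X y ∈ Y b y := by
    filter_upwards [hU, hO.mem_nhds hzO, hf.continuousAt.eventually (hO.mem_nhds hfz)] with y h1 h2 h3
    rw [hE g hg y h1 h2 h3 b, hLX y h1]
    exact ((hp _).2 _ h3).1 _
  have key : ∀ a c, om (fderiv ℝ (p (xor b g.s)) (g.f z) (g.L z a) (g.L z w)) (g.L z c) +
      om (p (xor b g.s) (g.f z) (g.L z w)) (fderiv ℝ (fderiv ℝ g.f) z a c) =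
        sg g.s * om (fderiv ℝ X z a) c := fun a c => by
    have e : (fun y => om (p (xor b g.s) (g.f y) (g.L z w)) (fderiv ℝ g.f y c)) =ᶠ[𝓝 z]
        fun y => sg g.s * om (X y) c := by
      filter_upwards [hU] with y hy
      rw [← hLX y hy, hL y hy]
      exact H.sym g hg y hy _ _
    have d1 := (om.hasFDerivAt.comp z hX').clm_apply (hD.hasFDerivAt.clm_apply (hasFDerivAt_const c z))
    have d2 := ((om.hasFDerivAt.comp z hX.hasFDerivAt).clm_apply (hasFDerivAt_const c z)).const_mul
      (sg g.s)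
    have h := DFunLike.congr_fun ((d1.congr_of_eventuallyEq e.symm).unique d2) a
    simpa [hL z hz, add_comm] using h
  have hs : IsSymmSndFDerivAt ℝ g.f z := hf.isSymmSndFDerivAt (by
    rw [minSmoothness_of_isRCLikeNormedField]; exact WithTop.coe_le_coe.2 le_top)
  have h1 := (tau1S E om O (Y b) (p b) hO (hp b).1 (hp b).2).2 z hzO X hX hXY u hu v hv
  have h2 := key u v
  have h3 := key v u
  rw [hs.eq v u] at h3
  rw [tau_apply, ← hXz, ← h1, hXz]
  linear_combination h2 - h3

end Crest.Agent.N221.Hm
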