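import Crest.Agent.N221.Hm.Stm
import Crest.Agent.N221.Hu.SB2

/-! Row 221, block Hm: the first pair `Y = J T ∩ T^J` (helper60). -/

set_option autoImplicit false
set_option linter.unusedSectionVars false
set_option maxSynthPendingDepth 3

open Set Filter Topology Module
open scoped ContDiff

noncomputable section

namespace Crest.Agent.N221.Hm

open Hu SB

namespace Y0

variable {E : Type} [NormedAddCommGroup E] [NormedSpace ℝ E] [FiniteDimensional ℝ E]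
  {om : E →L[ℝ] E →L[ℝ] ℝ} {h h' J J' : Submodule ℝ (E →L[ℝ] E)} {a a' p : E →L[ℝ] E}
  {L : E ≃L[ℝ] E} {A : Subalgebra ℝ (E →L[ℝ] E)} {v : E}

/-- the vectors killed by `J` -/
def kl (J : Submodule ℝ (E →L[ℝ] E)) : Submodule ℝ E where
  carrier := {v | ∀ j ∈ J, j v = 0}
  add_mem' := fun h h' j hj => by rw [map_add, h j hj, h' j hj, add_zero]
  zero_mem' := fun _ _ => map_zero _
  smul_mem' := fun c v h j hj => by rw [map_smul, h j hj, smul_zero]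

/-- `J T ∩ T^J` -/
def YY (J : Submodule ℝ (E →L[ℝ] E)) : Submodule ℝ E := act J ⊤ ⊓ kl J

def Adj (om : E →L[ℝ] E →L[ℝ] ℝ) (a a' : E →L[ℝ] E) : Prop := ∀ v w, om (a v) w = om v (a' w)

lemma Adj.tr (nd : ∀ v, (∀ w, om v w = 0) → v = 0) (h : Adj om a a') : tr a' = tr a := by
  let Ω : E →ₗ[ℝ] Dual ℝ E := ContinuousLinearMap.coeLM ℝ ∘ₗ (om : E →ₗ[ℝ] E →L[ℝ] ℝ)
  have hi : Function.Injective Ω := (injective_iff_map_eq_zero Ω).2 fun v hv =>
    nd v fun w => LinearMap.congr_fun hv w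
  let e := LinearMap.linearEquivOfInjective Ω hi Subspace.dual_finrank_eq.symm
  rw [Hu.tr, Hu.tr, ← LinearMap.trace_transpose', ← LinearMap.trace_conj' _ e]
  congr 1
  refine LinearMap.ext fun φ => ?_
  obtain ⟨v, rfl⟩ := e.surjective φ
  rw [LinearEquiv.conj_apply_apply, e.symm_apply_apply]
  exact LinearMap.ext fun w => (h v w).symm

lemma env_adj (sp : ∀ X ∈ h, ∀ v w, om (X v) w + om v (X w) = 0) (ha : a ∈ env h) :
    ∃ a' ∈ env h, Adj om a a' := by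
  induction ha using Algebra.adjoin_induction with
  | mem x hx =>
    exact ⟨-x, neg_mem (Algebra.subset_adjoin hx), fun v w => by
      rw [neg_apply, map_neg, eq_neg_iff_add_eq_zero, sp x hx]⟩
  | algebraMap r =>
    exact ⟨_, (env h).algebraMap_mem r, fun v w => by simp [Algebra.algebraMap_eq_smul_one]⟩
  | add x y _ _ a b =>
    obtain ⟨x', x1, x2⟩ := a
    obtain ⟨y', y1, y2⟩ := b
    exact ⟨x' + y', add_mem x1 y1, fun v w => by simp only [add_apply, map_add, x2 v w, y2 v w]⟩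
  | mul x y _ _ a b =>
    obtain ⟨x', x1, x2⟩ := a
    obtain ⟨y', y1, y2⟩ := b
    exact ⟨y' * x', mul_mem y1 x1, fun v w => (x2 _ _).trans (y2 _ _)⟩

lemma rad_adj (skew : ∀ v w, om v w = -om w v) (nd : ∀ v, (∀ w, om v w = 0) → v = 0)
    (sp : ∀ X ∈ h, ∀ v w, om (X v) w + om v (X w) = 0) (ha : a ∈ rad (env h)) :
    ∃ a' ∈ rad (env h), Adj om a a' := by
  obtain ⟨a', h1, h2⟩ := env_adj sp ha.1
  refine ⟨a', ⟨h1, fun b hb => ?_⟩, h2⟩
  obtain ⟨b', b1, b2⟩ := env_adj sp hb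
  have : Adj om (b' * a) (a' * b) := fun v w => by
    change om (b' (a v)) w = om v (a' (b w))
    rw [skew, ← b2, ← skew, h2]
  rw [this.tr nd, tr_comm, ha.2 b' b1]

lemma YY_iso (hJ : ∀ a ∈ J, ∃ a' ∈ J, Adj om a a') {u : E} (hu : u ∈ YY J) (hv : v ∈ YY J) :
    om u v = 0 := by
  refine (Submodule.span_le (p := LinearMap.ker (om.flip v : E →ₗ[ℝ] ℝ))).2 ?_ hu.1
  rintro _ ⟨j, hj, w, -, rfl⟩
  obtain ⟨j', j1, j2⟩ := hJ j hj
  exact (j2 w v).trans (by rw [hv.2 j' j1, map_zero])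

lemma YY_inv (hJ : ∀ j ∈ J, a * j ∈ J ∧ j * a ∈ J) (hv : v ∈ YY J) : a v ∈ YY J := by
  have : act J ⊤ ≤ (act J ⊤).comap (a : E →ₗ[ℝ] E) := Submodule.span_le.2 (by
    rintro _ ⟨j, hj, w, -, rfl⟩
    exact Submodule.mem_comap.2 (Submodule.subset_span ⟨a * j, (hJ j hj).1, w, trivial, rfl⟩))
  exact ⟨Submodule.mem_comap.1 (this hv.1), fun j hj => hv.2 _ (hJ j hj).2⟩

lemma YY_ne (h0 : J ≠ ⊥) {n : ℕ} (hn : pw J n = ⊥) : ∃ v ∈ YY J, v ≠ 0 := by
  have h1 : ∃ k, pw J (k + 1) ≠ ⊥ ∧ pw J (k + 2) = ⊥ := by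
    by_contra! h
    have h2 : ∀ k, pw J (k + 1) ≠ ⊥ := fun k => by
      induction k with
      | zero =>
        refine fun e => h0 ((Submodule.eq_bot_iff _).2 fun j hj => ContinuousLinearMap.ext fun w => ?_)
        exact (Submodule.eq_bot_iff _).1 e _ (Submodule.subset_span ⟨j, hj, w, trivial, rfl⟩)
      | succ k ih => exact h k ih
    refine h2 n (Submodule.span_eq_bot.2 ?_)
    rintro _ ⟨j, -, w, hw, rfl⟩
    rw [hn] at hw
    rw [(Submodule.mem_bot ℝ).1 hw, map_zero]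
  obtain ⟨k, h2, h3⟩ := h1
  obtain ⟨v, v1, v2⟩ := (Submodule.ne_bot_iff _).1 h2
  refine ⟨v, ⟨Submodule.span_mono ?_ v1, fun j hj => ?_⟩, v2⟩
  · rintro _ ⟨j, hj, w, -, rfl⟩
    exact ⟨j, hj, w, trivial, rfl⟩
  · exact (Submodule.eq_bot_iff _).1 h3 _ (Submodule.subset_span ⟨j, hj, v, v1, rfl⟩)

/-- conjugate subspaces of endomorphisms -/
def Rel (L : E ≃L[ℝ] E) (h h' : Submodule ℝ (E →L[ℝ] E)) : Prop :=
  ∀ X, X ∈ h ↔ L.conjContinuousAlgEquiv X ∈ h'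

lemma Rel.symm (r : Rel L h h') : Rel L.symm h' h := fun X => by
  rw [r, ← ContinuousLinearEquiv.symm_conjContinuousAlgEquiv, ContinuousAlgEquiv.apply_symm_apply]

lemma Rel.env (r : Rel L h h') (ha : a ∈ env h) : L.conjContinuousAlgEquiv a ∈ env h' := by
  induction ha using Algebra.adjoin_induction with
  | mem x hx => exact Algebra.subset_adjoin ((r x).1 hx)
  | algebraMap c => rw [AlgHomClass.commutes]; exact (Hu.env h').algebraMap_mem c
  | add x y _ _ a b => rw [map_add]; exact add_mem a b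
  | mul x y _ _ a b => rw [map_mul]; exact mul_mem a b

lemma tr_conj (L : E ≃L[ℝ] E) (a : E →L[ℝ] E) : tr (L.conjContinuousAlgEquiv a) = tr a :=
  LinearMap.trace_conj' (a : E →ₗ[ℝ] E) L.toLinearEquiv

lemma Rel.rad' (r : Rel L h h') (ha : a ∈ rad (Hu.env h)) :
    L.conjContinuousAlgEquiv a ∈ rad (Hu.env h') := by
  refine ⟨r.env ha.1, fun b hb => ?_⟩
  rw [← L.conjContinuousAlgEquiv.apply_symm_apply b, ← map_mul, tr_conj]
  exact ha.2 _ (r.symm.env hb)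

lemma Rel.rad (r : Rel L h h') : Rel L (rad (Hu.env h)) (rad (Hu.env h')) := fun X =>
  ⟨r.rad', fun hX => L.conjContinuousAlgEquiv.symm_apply_apply X ▸ r.symm.rad' hX⟩

lemma Rel.YY' (r : Rel L J J') (hv : v ∈ YY J) : L v ∈ YY J' := by
  have : act J ⊤ ≤ (act J' ⊤).comap (L : E →ₗ[ℝ] E) := Submodule.span_le.2 (by
    rintro _ ⟨j, hj, w, -, rfl⟩
    exact Submodule.mem_comap.2 (Submodule.subset_span ⟨_, (r j).1 hj, L w, trivial, by simp⟩))
  exact ⟨Submodule.mem_comap.1 (this hv.1), fun j hj => by simpa using hv.2 _ ((r.symm j).1 hj)⟩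

lemma Rel.YY (r : Rel L J J') : v ∈ YY J ↔ L v ∈ YY J' :=
  ⟨r.YY', fun hv => L.symm_apply_apply v ▸ r.symm.YY' hv⟩

lemma pr_eqv {p' : E →L[ℝ] E} {s : Bool} (e : pr p' s (L v) = L (p v)) (b : Bool) :
    pr p' (xor b s) (L v) = L (pr p b v) := by
  cases b
  · rwa [Bool.false_xor]
  · cases s <;> simp [pr] at e ⊢ <;> simp [← e]

end Y0

open Y0

theorem y0S (hJ : JS) : Y0S := by
  intro E _ _ _ om W π P O h e pg al hne
  obtain ⟨pJ, j1, j2⟩ := al.smJ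
  have ho := al.cls.sub.opn
  have gJ : ∀ z ∈ O, Gen ∞ (fun z => rad (env (h z))) z := fun z hz =>
    SmAt.gen ⟨pJ, Cn.of_on j1 ho hz, eventually_of_mem (ho.mem_nhds hz) j2⟩
  obtain ⟨O1, a1, a2, a3, a4⟩ := Gen.shrink ho al.cls.sub.ne fun z hz => (gJ z hz).act Gen.top
  let Y : Bool → E → Submodule ℝ E := fun b z => YY (rad (env (h z))) ⊓ (1 - pr (e z) b).ker
  have cut : ∀ b, ∀ z ∈ O1, Cut ∞ (Y b) z := fun b z hz => by
    have he := Cn.of_on al.sme ho (a3 hz)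
    refine ((a4 z hz).cut.inf (Cut.ann (F := fun z => kl (rad (env (h z)))) (gJ z (a3 hz))
      (μ := fun _ => (ContinuousLinearMap.id ℝ (E →L[ℝ] E)).flip) (Cn.const _)
      (Eventually.of_forall fun _ _ => Iff.rfl))).inf (Cut.ker (Cn.one_sub ?_))
    cases b
    exacts [he, he.one_sub]
  obtain ⟨z2, b1, b2⟩ := Cut.exists_smAt a1 a2 (cut false)
  obtain ⟨O2, b3, b4, b5, -, -, p2, b6, b7⟩ := b2.shrink a1 b1
  obtain ⟨z3, c1, c2⟩ := Cut.exists_smAt b3 ⟨_, b4⟩ fun z hz => cut true z (b5 hz)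
  obtain ⟨O3, c3, c4, c5, -, -, p3, c6, c7⟩ := c2.shrink b3 c1
  have hs : O3 ⊆ O := c5.trans (b5.trans a3)
  have mem : ∀ b, ∀ z ∈ O, ∀ v, v ∈ Y b z ↔ v ∈ YY (rad (env (h z))) ∧ pr (π z) b v = v :=
    fun b z hz v => and_congr_right fun hv => by
      have : e z v = π z v := sub_eq_zero.1 (hv.2 _ (al.ej z hz))
      change v - pr (e z) b v = 0 ↔ _
      rw [sub_eq_zero, eq_comm]
      cases b <;> simp [pr, this]
  refine ⟨O3, Y, ⟨c3, ⟨_, c4⟩, hs⟩, ⟨fun b => ?_, fun b z hz v hv => ((mem b z (hs hz) v).1 hv).2,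
    fun b z hz u hu v hv => YY_iso (fun a => rad_adj pg.skew pg.nd (al.cls.sp z (hs hz))) hu.1 hv.1,
    fun g hg z hU hz hz' b v => ?_, fun b z hz X hX v hv => ?_, fun b z hz j hj u hu => hu.1.2 j hj⟩,
    z3, c4, ?_⟩
  · cases b
    exacts [⟨p2, b6.mono c5, fun z hz => b7 z (c5 hz)⟩, ⟨p3, c6, c7⟩]
  · rw [mem _ _ (hs hz), mem _ _ (hs hz'), (Rel.rad (al.cls.eqv g hg z hU (hs hz) (hs hz'))).YY,
      pr_eqv (pg.eqv g hg z hU (al.cls.sub.sub (hs hz)) (al.cls.sub.sub (hs hz')) v),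
      (g.L z).injective.eq_iff]
  · have hA : X ∈ env (h z) := Algebra.subset_adjoin hX
    rw [mem _ _ (hs hz)] at hv ⊢
    refine ⟨YY_inv ((hJ E _).1 X hA) hv.1, ?_⟩
    have : π z (X v) = X (π z v) := sub_eq_zero.1 (hv.1.2 _ (al.cen z (hs hz) X hA))
    conv_rhs => rw [← hv.2]
    cases b <;> simp [pr, this]
  · obtain ⟨v, v1, v2⟩ := YY_ne (hne z3 (hs c4)) (hJ E _).2
    have h1 := YY_inv ((hJ E _).1 _ (al.mem z3 (hs c4))) v1
    have h2 : π z3 (π z3 v) = π z3 v :=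
      congrArg (fun T : E →L[ℝ] E => T v) (pg.idem z3 (al.cls.sub.sub (hs c4)))
    by_cases e0 : π z3 v = 0
    · exact ⟨true, (Submodule.ne_bot_iff _).2 ⟨v, (mem _ _ (hs c4) _).2 ⟨v1, by simp [pr, e0]⟩, v2⟩⟩
    · exact ⟨false, (Submodule.ne_bot_iff _).2 ⟨_, (mem _ _ (hs c4) _).2 ⟨h1, h2⟩, e0⟩⟩

end Crest.Agent.N221.Hm
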