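import Crest.Agent.N221.Hm.Main
import Crest.Agent.N221.Hm.K
import Crest.Agent.N221.Hm.Al
import Crest.Agent.N221.Hm.Y0
import Crest.Agent.N221.Hm.Tau
import Crest.Agent.N221.Hm.Stab
import Crest.Agent.N221.Hu.Pur

/-! Row 221, block Hm: assembly modulo the three algebra lemmas `JS`, `MS`, `ES`. -/

set_option autoImplicit false

namespace Crest.Agent.N221.Hm

open Hu

theorem hm_of_alg (hJ : JS) (hM : MS) (hE : ES) : HmS :=
  hm_of (alS logS purS hE hJ) (y0S hJ) tau1S (stabS log3S tau1S tau2S)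
    (kS logS hM lyS tau1S tau2S)

end Crest.Agent.N221.Hm
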