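import Crest.Agent.N221.Hm.Stm
import Crest.Agent.N221.Hu.Log

/-! Row 221, block Hm: common lemmas (shrinking, equivariance of the envelope, adjoints). -/

set_option autoImplicit false
set_option linter.unusedSectionVars false
set_option linter.unusedVariables false
set_option maxSynthPendingDepth 3

open Set Filter Topology Module
open scoped ContDiff

noncomputable section

namespace Crest.Agent.N221.Hm

open Hu

variable {E F : Type} [NormedAddCommGroup E] [NormedSpace ℝ E] [FiniteDimensional ℝ E]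
  [NormedAddCommGroup F] [NormedSpace ℝ F] [FiniteDimensional ℝ F]
  {om : E →L[ℝ] E →L[ℝ] ℝ} {W O O' O'' : Set E} {π e : E → E →L[ℝ] E} {P : Set (Mv E)}
  {h : E → Submodule ℝ (E →L[ℝ] E)} {Y : Bool → E → Submodule ℝ E} {M : E → Submodule ℝ F}
  {p : Bool → E → E →L[ℝ] E}

/-! ### shrinking -/

lemma Sub.trans (a : Sub O'' O') (b : Sub O' O) : Sub O'' O := ⟨a.opn, a.ne, a.sub.trans b.sub⟩

lemma Sub.refl (a : Sub O W) : Sub O O := ⟨a.opn, a.ne, Subset.rfl⟩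

/-- a property that holds near `z` holds on a smaller open set containing `z` -/
lemma Sub.of_ev {q : E → Prop} (hO : IsOpen O) {z : E} (hz : z ∈ O) (hq : ∀ᶠ y in 𝓝 z, q y) :
    ∃ O', Sub O' O ∧ z ∈ O' ∧ ∀ y ∈ O', q y := by
  obtain ⟨V, a, b, c⟩ := eventually_nhds_iff.1 (hq.and (hO.mem_nhds hz))
  exact ⟨V, ⟨b, ⟨z, c⟩, fun y hy => (a y hy).2⟩, c, fun y hy => (a y hy).1⟩

lemma Sm.mono (a : Sm M O) (b : O' ⊆ O) : Sm M O' := by
  obtain ⟨p, h1, h2⟩ := a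
  exact ⟨p, h1.mono b, fun z hz => h2 z (b hz)⟩

lemma Sm.congr {M' : E → Submodule ℝ F} (a : Sm M O) (b : ∀ z ∈ O, M' z = M z) : Sm M' O := by
  obtain ⟨p, h1, h2⟩ := a
  exact ⟨p, h1, fun z hz => b z hz ▸ h2 z hz⟩

lemma Sm.rank (a : Sm M O) (hO : IsOpen O) {z : E} (hz : z ∈ O) :
    ∀ᶠ y in 𝓝 z, finrank ℝ (M y) = finrank ℝ (M z) := (a.smAt hO hz).rank

/-- the same for a pair of families -/
lemma sm2_of_cut {M : Bool → E → Submodule ℝ F} (hO : IsOpen O) (hne : O.Nonempty)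
    (a : ∀ b, ∀ y ∈ O, SB.Cut ∞ (M b) y) : ∃ O', Sub O' O ∧ ∀ b, Sm (M b) O' := by
  obtain ⟨O₁, s₁, m₁⟩ := sm_of_cut hO hne (a false)
  obtain ⟨O₂, s₂, m₂⟩ := sm_of_cut s₁.opn s₁.ne fun y hy => a true y (s₁.sub hy)
  exact ⟨O₂, s₂.trans s₁, fun b => by cases b; exacts [m₁.mono s₂.sub, m₂]⟩

lemma sm2_of_gen {M : Bool → E → Submodule ℝ F} (hO : IsOpen O) (hne : O.Nonempty)
    (a : ∀ b, ∀ y ∈ O, SB.Gen ∞ (M b) y) : ∃ O', Sub O' O ∧ ∀ b, Sm (M b) O' := by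
  obtain ⟨O₁, s₁, m₁⟩ := sm_of_gen hO hne (a false)
  obtain ⟨O₂, s₂, m₂⟩ := sm_of_gen s₁.opn s₁.ne fun y hy => a true y (s₁.sub hy)
  exact ⟨O₂, s₂.trans s₁, fun b => by cases b; exacts [m₁.mono s₂.sub, m₂]⟩

lemma Cls.mono (a : Cls om W π P O h) (b : Sub O' O) : Cls om W π P O' h :=
  ⟨b.trans a.sub, a.sm.mono b.sub, fun z hz => a.lie z (b.sub hz), fun z hz => a.sp z (b.sub hz),
    fun z hz => a.tr0 z (b.sub hz), fun g hg z hz h1 h2 => a.eqv g hg z hz (b.sub h1) (b.sub h2),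
    fun g hg z hz => a.log g hg z (b.sub hz)⟩

lemma Al.mono (a : Al om W π P O h e) (b : Sub O' O) : Al om W π P O' h e :=
  ⟨a.cls.mono b, a.smA.mono b.sub, a.smJ.mono b.sub, fun z hz => a.mem z (b.sub hz),
    fun z hz => a.cen z (b.sub hz), a.sme.mono b.sub, fun z hz => a.ej z (b.sub hz)⟩

lemma Eqv.mono (a : Eqv P O Y) (b : O' ⊆ O) : Eqv P O' Y :=
  fun g hg z hz h1 h2 => a g hg z hz (b h1) (b h2)

lemma Pr0.mono (a : Pr0 om π P O h Y) (b : O' ⊆ O) : Pr0 om π P O' h Y :=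
  ⟨fun c => (a.sm c).mono b, fun c z hz => a.le c z (b hz), fun c z hz => a.iso c z (b hz),
    a.eqv.mono b, fun c z hz => a.inv c z (b hz), fun c z hz => a.kil c z (b hz)⟩

lemma Pj2.mono (a : Pj2 O Y p) (b : O' ⊆ O) : Pj2 O' Y p :=
  fun c => ⟨(a c).1.mono b, fun z hz => (a c).2 z (b hz)⟩

lemma exists_pj2 (a : ∀ b, Sm (Y b) O) : ∃ p, Pj2 O Y p := by
  choose p h1 h2 using a
  exact ⟨p, fun b => ⟨h1 b, h2 b⟩⟩

/-! ### projectors and signs -/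

lemma pr_false (q : E →L[ℝ] E) : pr q false = q := rfl
lemma pr_true (q : E →L[ℝ] E) : pr q true = 1 - q := rfl

lemma pr_add (q : E →L[ℝ] E) (b : Bool) (v : E) : pr q b v + pr q (!b) v = v := by
  cases b <;> simp [pr]

lemma pr_idem {q : E →L[ℝ] E} (hq : q * q = q) (b : Bool) : pr q b * pr q b = pr q b := by
  cases b
  · exact hq
  · simp [pr, sub_mul, mul_sub, hq]

lemma pr_mem {A : Subalgebra ℝ (E →L[ℝ] E)} {q : E →L[ℝ] E} (hq : q ∈ A) (b : Bool) :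
    pr q b ∈ A := by
  cases b
  exacts [hq, A.sub_mem A.one_mem hq]

lemma sg_ne (b : Bool) : sg b ≠ 0 := by cases b <;> simp [sg]

lemma sg_sq (b : Bool) : sg b * sg b = 1 := by cases b <;> simp [sg]

lemma not_xor' (b s : Bool) : xor (!b) s = !(xor b s) := by cases b <;> cases s <;> rfl

lemma PG.pr_eqv (G : PG om W π P) {g : Mv E} (hg : g ∈ P) {z : E} (hz : z ∈ g.U) (h1 : z ∈ W)
    (h2 : g.f z ∈ W) (b : Bool) (v : E) :
    pr (π (g.f z)) (xor b g.s) (g.L z v) = g.L z (pr (π z) b v) := by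
  have := G.eqv g hg z hz h1 h2 v
  cases b
  · rw [Bool.false_xor]; exact this
  · have e := pr_add (π (g.f z)) g.s (g.L z v)
    rw [this] at e
    rw [Bool.true_xor, eq_sub_of_add_eq' e, ← map_sub]
    rfl

/-! ### envelope and radical -/

lemma inv_env {h : Submodule ℝ (E →L[ℝ] E)} {N : Submodule ℝ E} (a : Inv h N) : Inv (env h) N :=
  fun x hx => Algebra.adjoin_induction (p := fun (x : E →L[ℝ] E) _ => ∀ v ∈ N, x v ∈ N)
    (fun x hx => a x hx)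
    (fun r v hv => by simpa [Algebra.algebraMap_eq_smul_one] using N.smul_mem r hv)
    (fun x y _ _ a b v hv => N.add_mem (a v hv) (b v hv)) (fun x y _ _ a b v hv => a _ (b v hv)) hx

lemma tr_cj (L : E ≃L[ℝ] E) (a : E →L[ℝ] E) : tr (L.conjContinuousAlgEquiv a) = tr a :=
  LinearMap.trace_conj' (a : E →ₗ[ℝ] E) L.toLinearEquiv

lemma env_cj_le (L : E ≃L[ℝ] E) {h h' : Submodule ℝ (E →L[ℝ] E)}
    (a : ∀ X ∈ h, L.conjContinuousAlgEquiv X ∈ h') :
    ∀ x ∈ env h, L.conjContinuousAlgEquiv x ∈ env h' :=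
  fun x hx => Algebra.adjoin_induction (p := fun x _ => L.conjContinuousAlgEquiv x ∈ env h')
    (fun x hx => Algebra.subset_adjoin (a x hx))
    (fun r => by rw [AlgHomClass.commutes]; exact (env h').algebraMap_mem r)
    (fun x y _ _ a b => by rw [map_add]; exact add_mem a b)
    (fun x y _ _ a b => by rw [map_mul]; exact mul_mem a b) hx

lemma cj_symm (L : E ≃L[ℝ] E) (a : E →L[ℝ] E) :
    L.symm.conjContinuousAlgEquiv (L.conjContinuousAlgEquiv a) = a := by ext v; simp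

lemma cj_symm' (L : E ≃L[ℝ] E) (a : E →L[ℝ] E) :
    L.conjContinuousAlgEquiv (L.symm.conjContinuousAlgEquiv a) = a := by ext v; simp

lemma cj_apply (L : E ≃L[ℝ] E) (a : E →L[ℝ] E) (v : E) :
    L.conjContinuousAlgEquiv a (L v) = L (a v) := by simp

lemma env_cj (L : E ≃L[ℝ] E) {h h' : Submodule ℝ (E →L[ℝ] E)}
    (a : ∀ X, X ∈ h ↔ L.conjContinuousAlgEquiv X ∈ h') (x : E →L[ℝ] E) :
    x ∈ env h ↔ L.conjContinuousAlgEquiv x ∈ env h' :=
  ⟨env_cj_le L (fun X hX => (a X).1 hX) x, fun hx => cj_symm L x ▸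
    env_cj_le L.symm (fun X hX => (a _).2 (by rwa [cj_symm'])) _ hx⟩

lemma rad_cj (L : E ≃L[ℝ] E) {h h' : Submodule ℝ (E →L[ℝ] E)}
    (a : ∀ X, X ∈ h ↔ L.conjContinuousAlgEquiv X ∈ h') (x : E →L[ℝ] E) :
    x ∈ rad (env h) ↔ L.conjContinuousAlgEquiv x ∈ rad (env h') := by
  refine and_congr (env_cj L a x) ⟨fun H b hb => ?_, fun H b hb => ?_⟩
  · rw [← cj_symm' L b, ← map_mul, tr_cj]
    exact H _ ((env_cj L a _).2 (by rwa [cj_symm']))
  · rw [← tr_cj L, map_mul]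
    exact H _ ((env_cj L a _).1 hb)

/-- `a'` is the `ω`-adjoint of `a` -/
def Adj (om : E →L[ℝ] E →L[ℝ] ℝ) (a a' : E →L[ℝ] E) : Prop := ∀ v w, om (a v) w = om v (a' w)

lemma Adj.symm (sk : ∀ v w, om v w = -om w v) {a a' : E →L[ℝ] E} (H : Adj om a a') :
    Adj om a' a := fun v w => by rw [sk, ← H, ← sk]

lemma Adj.mul {a a' b b' : E →L[ℝ] E} (H : Adj om a a') (H' : Adj om b b') :
    Adj om (a * b) (b' * a') := fun v w => (H _ _).trans (H' _ _)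

lemma Adj.tr (sk : ∀ v w, om v w = -om w v) (nd : ∀ v, (∀ w, om v w = 0) → v = 0)
    {a a' : E →L[ℝ] E} (H : Adj om a a') : tr a = tr a' := by
  let Ω : E →ₗ[ℝ] Dual ℝ E := (ContinuousLinearMap.coeLM ℝ) ∘ₗ (om : E →ₗ[ℝ] E →L[ℝ] ℝ)
  have hi : Function.Injective Ω := (injective_iff_map_eq_zero _).2 fun v hv =>
    nd v fun w => LinearMap.congr_fun hv w
  let Θ := Ω.linearEquivOfInjective hi Subspace.dual_finrank_eq.symm
  have : Θ.conj (a : E →ₗ[ℝ] E) = Dual.transpose (R := ℝ) (a' : E →ₗ[ℝ] E) := by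
    refine LinearMap.ext fun φ => ?_
    obtain ⟨v, rfl⟩ := Θ.surjective φ
    rw [LinearEquiv.conj_apply_apply, Θ.symm_apply_apply]
    exact LinearMap.ext fun w => H v w
  rw [Hu.tr, Hu.tr, ← LinearMap.trace_conj' _ Θ, this, LinearMap.trace_transpose']

lemma env_star {h : Submodule ℝ (E →L[ℝ] E)} (sp : ∀ X ∈ h, ∀ v w, om (X v) w + om v (X w) = 0) :
    ∀ a ∈ env h, ∃ a' ∈ env h, Adj om a a' :=
  fun x hx => Algebra.adjoin_induction (p := fun x _ => ∃ a' ∈ env h, Adj om x a')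
    (fun x hx => ⟨-x, neg_mem (Algebra.subset_adjoin hx), fun v w => by
      simpa [eq_neg_iff_add_eq_zero] using sp x hx v w⟩)
    (fun r => ⟨_, (env h).algebraMap_mem r, fun v w => by simp [Algebra.algebraMap_eq_smul_one]⟩)
    (fun x y _ _ ⟨a, ha, a'⟩ ⟨b, hb, b'⟩ => ⟨a + b, add_mem ha hb, fun v w => by
      simp [a' v w, b' v w]⟩)
    (fun x y _ _ ⟨a, ha, a'⟩ ⟨b, hb, b'⟩ => ⟨b * a, mul_mem hb ha, a'.mul b'⟩) hx

lemma rad_star (sk : ∀ v w, om v w = -om w v) (nd : ∀ v, (∀ w, om v w = 0) → v = 0)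
    {h : Submodule ℝ (E →L[ℝ] E)} (sp : ∀ X ∈ h, ∀ v w, om (X v) w + om v (X w) = 0) :
    ∀ a ∈ rad (env h), ∃ a' ∈ rad (env h), Adj om a a' := fun a ha => by
  obtain ⟨a', h1, h2⟩ := env_star sp a ha.1
  refine ⟨a', ⟨h1, fun b hb => ?_⟩, h2⟩
  obtain ⟨b', h3, h4⟩ := env_star sp b hb
  rw [← ((h4.symm sk).mul h2).tr sk nd, tr_comm]
  exact ha.2 _ h3

/-! ### the orthogonal -/

lemma mem_perp {Y : Submodule ℝ E} {v : E} : v ∈ perp om Y ↔ ∀ y ∈ Y, om y v = 0 := Iff.rfl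

lemma perp_cut {Y : E → Submodule ℝ E} {z : E} (a : SB.Gen ∞ Y z) :
    SB.Cut ∞ (fun y => perp om (Y y)) z :=
  SB.Cut.ann a (μ := fun _ => om.flip) (SB.Cn.const _) (Eventually.of_forall fun _ _ => Iff.rfl)

lemma perp_sm (hO : IsOpen O) (hne : O.Nonempty) (a : ∀ b, Sm (Y b) O) :
    ∃ O', Sub O' O ∧ ∀ b, Sm (fun z => perp om (Y b z)) O' :=
  sm2_of_cut hO hne fun b y hy => perp_cut ((a b).smAt hO hy).gen

lemma perp_inv {h : Submodule ℝ (E →L[ℝ] E)} {Y : Submodule ℝ E}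
    (sp : ∀ X ∈ h, ∀ v w, om (X v) w + om v (X w) = 0) (a : Inv h Y) : Inv h (perp om Y) :=
  fun X hX v hv y hy => by
    have := sp X hX y v
    rwa [hv _ (a X hX y hy), zero_add] at this

lemma perp_eqv (G : PG om W π P) (a : Eqv P O Y) : Eqv P O fun b z => perp om (Y b z) := by
  intro g hg z hz h1 h2 b v
  refine ⟨fun H y hy => ?_, fun H y hy => ?_⟩
  · obtain ⟨y, rfl⟩ := (g.L z).surjective y
    rw [G.sym g hg z hz, H y ((a g hg z hz h1 h2 b y).2 hy), mul_zero]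
  · have := H _ ((a g hg z hz h1 h2 b y).1 hy)
    rw [G.sym g hg z hz] at this
    exact (mul_eq_zero.1 this).resolve_left (sg_ne _)

/-! ### the flip count -/

theorem flipS : FlipS := by
  intro E _ _ _ om W π P O Y G hO hs he ⟨z₀, hz₀, b₀, hb₀⟩
  obtain ⟨O', s, m, r⟩ := Sub.of_ev hO.opn hz₀
    (((hs false).rank hO.opn hz₀).and ((hs true).rank hO.opn hz₀))
  have r' : ∀ b, ∀ y ∈ O', finrank ℝ (Y b y) = finrank ℝ (Y b z₀) := fun b y hy => by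
    cases b
    exacts [(r y hy).1, (r y hy).2]
  have nz : ∀ b, Y b z₀ ≠ ⊥ → ∀ y ∈ O', Y b y ≠ ⊥ := fun b hb y hy e =>
    hb (Submodule.finrank_eq_zero.1 (by rw [← r' b y hy, e, finrank_bot]))
  obtain ⟨g, hg, gs, z, hz, h1, h2⟩ := G.flip O' (s.trans hO)
  obtain ⟨v, hv, v0⟩ := (Submodule.ne_bot_iff _).1 (nz b₀ hb₀ z h1)
  have h3 := (he g hg z hz (s.sub h1) (s.sub h2) b₀ v).1 hv
  rw [gs, Bool.xor_true] at h3
  have h4 : Y (!b₀) z₀ ≠ ⊥ := fun e => by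
    have : Y (!b₀) (g.f z) = ⊥ := Submodule.finrank_eq_zero.1 (by rw [r' _ _ h2, e, finrank_bot])
    rw [this, Submodule.mem_bot, map_eq_zero_iff _ (g.L z).injective] at h3
    exact v0 h3
  refine ⟨O', s, fun b => nz b ?_⟩
  by_cases e : b = b₀
  · exact e ▸ hb₀
  · rwa [Bool.eq_not_of_ne e]

end Crest.Agent.N221.Hm
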