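import Crest.Agent.N221.Hm.Kit

/-! Row 221, block Hm: the two minimality arguments. -/

set_option autoImplicit false
set_option linter.unusedSectionVars false
set_option linter.unusedVariables false
set_option maxSynthPendingDepth 3

open Set Filter Topology Module
open scoped ContDiff

noncomputable section

namespace Crest.Agent.N221.Hm

open Hu

variable {E : Type} [NormedAddCommGroup E] [NormedSpace ℝ E] [FiniteDimensional ℝ E]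
  {om : E →L[ℝ] E →L[ℝ] ℝ} {W : Set E} {π : E → E →L[ℝ] E} {P : Set (Mv E)}

/-- a member of the class of minimal rank -/
lemma min_cls (H : ∃ O h, Cls om W π P O h) : ∃ O h, Cls om W π P O h ∧
    ∀ O' h', Sub O' O → Cls om W π P O' h' → ∀ z ∈ O', h' z ≤ h z → h' z = h z := by
  let S : Set (Set E × (E → Submodule ℝ (E →L[ℝ] E)) × E) :=
    {x | Cls om W π P x.1 x.2.1 ∧ x.2.2 ∈ x.1}
  obtain ⟨O, h, c⟩ := H
  obtain ⟨z, hz⟩ := c.sub.ne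
  obtain ⟨⟨O, h, z⟩, ⟨c, hz⟩, hm⟩ := SB.exists_min (s := S) ⟨(O, h, z), c, hz⟩
    fun x => finrank ℝ (x.2.1 x.2.2)
  obtain ⟨O₁, s, -, r⟩ := Sub.of_ev c.sub.opn hz (c.sm.rank c.sub.opn hz)
  refine ⟨O₁, h, c.mono s, fun O' h' s' c' y hy le => Submodule.eq_of_le_of_finrank_le le ?_⟩
  rw [r y (s'.sub hy)]
  exact hm (O', h', y) ⟨c', hy⟩

/-- a nonzero pair of minimal rank -/
lemma min_pair {O : Set E} {h : E → Submodule ℝ (E →L[ℝ] E)}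
    (H : ∃ O' Y, Sub O' O ∧ Pr0 om π P O' h Y ∧ ∀ b, ∀ z ∈ O', Y b z ≠ ⊥) :
    ∃ O' Y, Sub O' O ∧ Pr0 om π P O' h Y ∧ (∀ b, ∀ z ∈ O', Y b z ≠ ⊥) ∧
      ∀ O'' K, Sub O'' O' → Pr0 om π P O'' h K → (∀ b, ∀ z ∈ O'', K b z ≠ ⊥) →
        ∀ z ∈ O'', (∀ b, K b z ≤ Y b z) → ∀ b, K b z = Y b z := by
  let S : Set (Set E × (Bool → E → Submodule ℝ E) × E) :=
    {x | (Sub x.1 O ∧ Pr0 om π P x.1 h x.2.1 ∧ ∀ b, ∀ z ∈ x.1, x.2.1 b z ≠ ⊥) ∧ x.2.2 ∈ x.1}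
  obtain ⟨O', Y, c⟩ := H
  obtain ⟨z, hz⟩ := c.1.ne
  obtain ⟨⟨O', Y, z⟩, ⟨⟨s₀, c, nz⟩, hz⟩, hm⟩ := SB.exists_min (s := S) ⟨(O', Y, z), c, hz⟩
    fun x => finrank ℝ (x.2.1 false x.2.2) + finrank ℝ (x.2.1 true x.2.2)
  obtain ⟨O₁, s, -, r⟩ := Sub.of_ev s₀.opn hz
    (((c.sm false).rank s₀.opn hz).and ((c.sm true).rank s₀.opn hz))
  refine ⟨O₁, Y, s.trans s₀, c.mono s.sub, fun b y hy => nz b y (s.sub hy),
    fun O'' K s' c' nz' y hy le b => Submodule.eq_of_le_of_finrank_le (le b) ?_⟩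
  have h1 := hm (O'', K, y) ⟨⟨s'.trans (s.trans s₀), c', nz'⟩, hy⟩
  have h2 := r y (s'.sub hy)
  have h3 := Submodule.finrank_mono (le false)
  have h4 := Submodule.finrank_mono (le true)
  simp only at h1 h2
  cases b <;> omega

theorem hm_of (hA : AlS) (hY : Y0S) (hT : Tau1S) (hS : StabS) (hK : KS) : HmS := by
  intro E _ _ _ om W π P G H
  obtain ⟨O, h, c, hmin⟩ := min_cls H
  obtain ⟨O₁, e, s₁, a⟩ := hA E om W π P O h G c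
  obtain ⟨z₀, hz₀⟩ := s₁.ne
  obtain ⟨O₂, s₂, -, r⟩ := Sub.of_ev s₁.opn hz₀ (a.smJ.rank s₁.opn hz₀)
  by_cases hJ : rad (env (h z₀)) = ⊥
  · refine Or.inl ⟨O₂, s₂.trans a.cls.sub, (a.sme.mono s₂.sub).congr fun z hz => ?_⟩
    have h0 : rad (env (h z)) = ⊥ :=
      Submodule.finrank_eq_zero.1 (by rw [r z hz, hJ, finrank_bot])
    have := a.ej z (s₂.sub hz)
    rw [h0, Submodule.mem_bot, sub_eq_zero] at this
    exact this.symm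
  right
  have a₂ := a.mono s₂
  obtain ⟨O₃, Y, s₃, y, nz⟩ := hY E om W π P O₂ h e G a₂ fun z hz e =>
    hJ (Submodule.finrank_eq_zero.1 (by rw [← r z hz, e, finrank_bot]))
  obtain ⟨O₄, s₄, nz⟩ := flipS E om W π P O₃ Y G (s₃.trans a₂.cls.sub) y.sm y.eqv nz
  obtain ⟨O₅, Y, s₅, y, nz, ymin⟩ := min_pair ⟨O₄, Y, s₄.trans s₃, y.mono s₄.sub, nz⟩
  obtain ⟨p, hp⟩ := exists_pj2 y.sm
  have a₅ := a₂.mono s₅
  obtain ⟨O₆, h', s₆, c', hh⟩ := hS E om W π P O₅ h Y p G a₅.cls y hp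
  have ti : ∀ z ∈ O₆, ∀ X ∈ h z, TI om Y p z X := fun z hz X hX => by
    have := hmin O₆ h' (s₆.trans (s₅.trans (s₂.trans s₁))) c' z hz fun X hX => ((hh z hz X).1 hX).1
    exact ((hh z hz X).1 (this.ge hX)).2
  have a₆ := a₅.mono s₆
  obtain ⟨O₇, K, s₇, k, nk, hk⟩ := hK E om W π P O₆ h e Y p G a₆ (y.mono s₆.sub)
    (fun b z hz => nz b z (s₆.sub hz)) (hp.mono s₆.sub) ti
  obtain ⟨O₈, s₈, nk⟩ := flipS E om W π P O₇ K G (s₇.trans a₆.cls.sub) k.sm k.eqv nk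
  have s := s₈.trans (s₇.trans s₆)
  have y₈ := y.mono s.sub
  refine ⟨O₈, Y, s.trans a₅.cls.sub, y₈.sm, fun b z hz => nz b z (s.sub hz), y₈.le, y₈.iso, y₈.eqv,
    fun b z hz X hX hs u hu w hw => ?_⟩
  have h1 := (hT E om O₅ (Y (!b)) (p (!b)) s₅.opn (hp _).1 (hp _).2).2 z (s.sub hz) X hX hs u
    (fun v hv => by rw [G.skew, y₈.iso b z hz u hu v hv, neg_zero]) w hw
  rwa [(hk z (s₈.sub hz)).2 (ymin O₈ K s (k.mono s₈.sub) nk z hz (hk z (s₈.sub hz)).1) b u hu w hw _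
    hs.self_of_nhds, sub_eq_zero] at h1

end Crest.Agent.N221.Hm
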