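import Crest.Agent.N221.Hm.Defs

/-! Row 221, block Hm: intermediate objects and leaf statements. -/

set_option autoImplicit false
set_option linter.unusedSectionVars false
set_option linter.unusedVariables false
set_option maxSynthPendingDepth 3

open Set Filter Topology Module
open scoped ContDiff

noncomputable section

namespace Crest.Agent.N221.Hm

open Hu

section Defs
variable {E : Type} [NormedAddCommGroup E] [NormedSpace ℝ E]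

/-- the `ω`-orthogonal -/
def perp (om : E →L[ℝ] E →L[ℝ] ℝ) (Y : Submodule ℝ E) : Submodule ℝ E where
  carrier := {v | ∀ y ∈ Y, om y v = 0}
  add_mem' := fun h h' y hy => by rw [map_add, h y hy, h' y hy, add_zero]
  zero_mem' := fun y _ => map_zero _
  smul_mem' := fun c v h y hy => by rw [map_smul, h y hy, smul_zero]

/-- `(u, v, w) ↦ ω (T u w) v` -/
def tr1 (om : E →L[ℝ] E →L[ℝ] ℝ) (T : E →L[ℝ] E →L[ℝ] E) : E →L[ℝ] E →L[ℝ] E →L[ℝ] ℝ :=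
  ((ContinuousLinearMap.flipₗᵢ ℝ E E ℝ).toContinuousLinearEquiv : _ →L[ℝ] _) ∘L
    (ContinuousLinearMap.compL ℝ E E (E →L[ℝ] ℝ) om) ∘L T

/-- `τ (u, v, w) = d (i_X ω)(u, v)` for the section `X = p · w` -/
def tau (om : E →L[ℝ] E →L[ℝ] ℝ) (p : E → E →L[ℝ] E) (z : E) : E →L[ℝ] E →L[ℝ] E →L[ℝ] ℝ :=
  tr1 om (fderiv ℝ p z) - (tr1 om (fderiv ℝ p z)).flip

lemma tau_apply (om : E →L[ℝ] E →L[ℝ] ℝ) (p : E → E →L[ℝ] E) (z u v w : E) :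
    tau om p z u v w = om (fderiv ℝ p z u w) v - om (fderiv ℝ p z v w) u := rfl

/-- class + smooth envelope `A`, smooth radical `J`, purity everywhere, smooth `e ≡ π mod J` -/
structure Al (om : E →L[ℝ] E →L[ℝ] ℝ) (W : Set E) (π : E → E →L[ℝ] E) (P : Set (Mv E))
    (O : Set E) (h : E → Submodule ℝ (E →L[ℝ] E)) (e : E → E →L[ℝ] E) : Prop where
  cls : Cls om W π P O h
  smA : Sm (fun z => Subalgebra.toSubmodule (env (h z))) O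
  smJ : Sm (fun z => rad (env (h z))) O
  mem : ∀ z ∈ O, π z ∈ env (h z)
  cen : ∀ z ∈ O, ∀ a ∈ env (h z), π z * a - a * π z ∈ rad (env (h z))
  sme : ContDiffOn ℝ ∞ e O
  ej : ∀ z ∈ O, e z - π z ∈ rad (env (h z))

/-- pairs of submodules killed by `J` (possibly zero) -/
structure Pr0 (om : E →L[ℝ] E →L[ℝ] ℝ) (π : E → E →L[ℝ] E) (P : Set (Mv E))
    (O : Set E) (h : E → Submodule ℝ (E →L[ℝ] E)) (Y : Bool → E → Submodule ℝ E) : Prop where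
  sm : ∀ b, Sm (Y b) O
  le : ∀ b, ∀ z ∈ O, ∀ v ∈ Y b z, pr (π z) b v = v
  iso : ∀ b, ∀ z ∈ O, ∀ u ∈ Y b z, ∀ v ∈ Y (!b) z, om u v = 0
  eqv : Eqv P O Y
  inv : ∀ b, ∀ z ∈ O, Inv (h z) (Y b z)
  kil : ∀ b, ∀ z ∈ O, ∀ j ∈ rad (env (h z)), ∀ u ∈ Y b z, j u = 0

/-- `p b` is a smooth projector on `Y b` -/
def Pj2 (O : Set E) (Y : Bool → E → Submodule ℝ E) (p : Bool → E → E →L[ℝ] E) : Prop :=
  ∀ b, ContDiffOn ℝ ∞ (p b) O ∧ ∀ z ∈ O, Prj (Y b z) (p b z)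

/-- `X` kills both tensors at `z` -/
def TI (om : E →L[ℝ] E →L[ℝ] ℝ) (Y : Bool → E → Submodule ℝ E) (p : Bool → E → E →L[ℝ] E)
    (z : E) (X : E →L[ℝ] E) : Prop :=
  ∀ b, TInv (tau om (p (!b)) z) (Y b z) (perp om (Y (!b) z)) (Y (!b) z) X

end Defs

/-- (AL) envelope, radical, purity by density, smooth representative -/
def AlS : Prop := ∀ (E : Type) [NormedAddCommGroup E] [NormedSpace ℝ E] [FiniteDimensional ℝ E]
  (om : E →L[ℝ] E →L[ℝ] ℝ) (W : Set E) (π : E → E →L[ℝ] E) (P : Set (Mv E))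
  (O : Set E) (h : E → Submodule ℝ (E →L[ℝ] E)), PG om W π P → Cls om W π P O h →
  ∃ O' e, Sub O' O ∧ Al om W π P O' h e

/-- (Y0) the first pair: `Y = J T ∩ T^J`, `Y b = pr b Y` -/
def Y0S : Prop := ∀ (E : Type) [NormedAddCommGroup E] [NormedSpace ℝ E] [FiniteDimensional ℝ E]
  (om : E →L[ℝ] E →L[ℝ] ℝ) (W : Set E) (π : E → E →L[ℝ] E) (P : Set (Mv E))
  (O : Set E) (h : E → Submodule ℝ (E →L[ℝ] E)) (e : E → E →L[ℝ] E), PG om W π P →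
  Al om W π P O h e → (∀ z ∈ O, rad (env (h z)) ≠ ⊥) →
  ∃ O' Y, Sub O' O ∧ Pr0 om π P O' h Y ∧ ∃ z ∈ O', ∃ b, Y b z ≠ ⊥

/-- (FLIP) both members of an equivariant pair are nonzero -/
def FlipS : Prop := ∀ (E : Type) [NormedAddCommGroup E] [NormedSpace ℝ E] [FiniteDimensional ℝ E]
  (om : E →L[ℝ] E →L[ℝ] ℝ) (W : Set E) (π : E → E →L[ℝ] E) (P : Set (Mv E))
  (O : Set E) (Y : Bool → E → Submodule ℝ E), PG om W π P → Sub O W → (∀ b, Sm (Y b) O) →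
  Eqv P O Y → (∃ z ∈ O, ∃ b, Y b z ≠ ⊥) → ∃ O', Sub O' O ∧ ∀ b, ∀ z ∈ O', Y b z ≠ ⊥

/-- (TAU1) `τ` is smooth and computes `d (i_X ω)` on the orthogonal -/
def Tau1S : Prop := ∀ (E : Type) [NormedAddCommGroup E] [NormedSpace ℝ E] [FiniteDimensional ℝ E]
  (om : E →L[ℝ] E →L[ℝ] ℝ) (O : Set E) (Y : E → Submodule ℝ E) (p : E → E →L[ℝ] E), IsOpen O →
  ContDiffOn ℝ ∞ p O → (∀ z ∈ O, Prj (Y z) (p z)) →
  ContDiffOn ℝ ∞ (tau om p) O ∧ ∀ z ∈ O, ∀ X : E → E, DifferentiableAt ℝ X z →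
    (∀ᶠ z' in 𝓝 z, X z' ∈ Y z') → ∀ u ∈ perp om (Y z), ∀ v ∈ perp om (Y z),
      om (fderiv ℝ X z u) v - om (fderiv ℝ X z v) u = tau om p z u v (X z)

/-- (TAU2) `τ` is natural -/
def Tau2S : Prop := ∀ (E : Type) [NormedAddCommGroup E] [NormedSpace ℝ E] [FiniteDimensional ℝ E]
  (om : E →L[ℝ] E →L[ℝ] ℝ) (W : Set E) (π : E → E →L[ℝ] E) (P : Set (Mv E))
  (O : Set E) (Y : Bool → E → Submodule ℝ E) (p : Bool → E → E →L[ℝ] E), PG om W π P → IsOpen O →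
  Eqv P O Y → Pj2 O Y p → ∀ g ∈ P, ∀ z ∈ g.U, z ∈ O → g.f z ∈ O → ∀ b,
    ∀ u ∈ perp om (Y b z), ∀ v ∈ perp om (Y b z), ∀ w ∈ Y b z,
      tau om (p (xor b g.s)) (g.f z) (g.L z u) (g.L z v) (g.L z w) = sg g.s * tau om (p b) z u v w

/-- (STAB) the stabiliser of the two tensors is in the class -/
def StabS : Prop := ∀ (E : Type) [NormedAddCommGroup E] [NormedSpace ℝ E] [FiniteDimensional ℝ E]
  (om : E →L[ℝ] E →L[ℝ] ℝ) (W : Set E) (π : E → E →L[ℝ] E) (P : Set (Mv E))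
  (O : Set E) (h : E → Submodule ℝ (E →L[ℝ] E)) (Y : Bool → E → Submodule ℝ E)
  (p : Bool → E → E →L[ℝ] E), PG om W π P → Cls om W π P O h → Pr0 om π P O h Y → Pj2 O Y p →
  ∃ O' h', Sub O' O ∧ Cls om W π P O' h' ∧ ∀ z ∈ O', ∀ X, X ∈ h' z ↔ X ∈ h z ∧ TI om Y p z X

/-- (K) the sub-pair `K` -/
def KS : Prop := ∀ (E : Type) [NormedAddCommGroup E] [NormedSpace ℝ E] [FiniteDimensional ℝ E]
  (om : E →L[ℝ] E →L[ℝ] ℝ) (W : Set E) (π : E → E →L[ℝ] E) (P : Set (Mv E))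
  (O : Set E) (h : E → Submodule ℝ (E →L[ℝ] E)) (e : E → E →L[ℝ] E)
  (Y : Bool → E → Submodule ℝ E) (p : Bool → E → E →L[ℝ] E), PG om W π P → Al om W π P O h e →
  Pr0 om π P O h Y → (∀ b, ∀ z ∈ O, Y b z ≠ ⊥) → Pj2 O Y p → (∀ z ∈ O, ∀ X ∈ h z, TI om Y p z X) →
  ∃ O' K, Sub O' O ∧ Pr0 om π P O' h K ∧ (∃ z ∈ O', ∃ b, K b z ≠ ⊥) ∧
    ∀ z ∈ O', (∀ b, K b z ≤ Y b z) ∧ ((∀ b, K b z = Y b z) → ∀ b, ∀ u ∈ Y b z,
      ∀ v ∈ perp om (Y (!b) z), ∀ w ∈ Y (!b) z, tau om (p (!b)) z u v w = 0)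

end Crest.Agent.N221.Hm
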